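import Vale.Agent.P209.Bdl.B1

/-!
# Slot calculus for symplectic maps between powers of `ℂ`
-/

namespace Vale.Agent.P209.H684

open Vale.Agent.P209 Vale.Agent.P209.Strong
open scoped ContDiff

/-- `exp (2 π i t)` -/
noncomputable def ee (t : ℝ) : ℂ := Complex.exp (((2 * Real.pi * t : ℝ) : ℂ) * Complex.I)

theorem ee_norm (t : ℝ) : ‖ee t‖ = 1 := Complex.norm_exp_ofReal_mul_I _

theorem ee_ne_zero (t : ℝ) : ee t ≠ 0 := Complex.exp_ne_zero _

theorem ee_zero : ee 0 = 1 := by simp [ee]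

theorem ee_add (s t : ℝ) : ee (s + t) = ee s * ee t := by
  unfold ee
  rw [← Complex.exp_add]
  congr 1
  push_cast
  ring

theorem ee_neg_mul (t : ℝ) : ee (-t) * ee t = 1 := by
  rw [← ee_add]; simp [ee_zero]

theorem ee_mul_neg (t : ℝ) : ee t * ee (-t) = 1 := by
  rw [← ee_add]; simp [ee_zero]

theorem ee_int (m : ℤ) : ee m = 1 := by
  unfold ee
  have : ((2 * Real.pi * (m : ℝ) : ℝ) : ℂ) * Complex.I = m * (2 * Real.pi * Complex.I) := by
    push_cast; ring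
  rw [this]
  exact Complex.exp_int_mul_two_pi_mul_I m

theorem ee_add_int (t : ℝ) (m : ℤ) : ee (t + m) = ee t := by
  rw [ee_add, ee_int, mul_one]

theorem ee_eq_ee {s t : ℝ} (h : ee s = ee t) : ∃ m : ℤ, s - t = m := by
  unfold ee at h
  rw [Complex.exp_eq_exp_iff_exists_int] at h
  obtain ⟨m, hm⟩ := h
  refine ⟨m, ?_⟩
  have h3 : ((2 * Real.pi * s : ℝ) : ℂ) * Complex.I =
      ((2 * Real.pi * t + m * (2 * Real.pi) : ℝ) : ℂ) * Complex.I := by
    rw [hm]; push_cast; ring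
  have h4 := mul_right_cancel₀ Complex.I_ne_zero h3
  have h5 : 2 * Real.pi * s = 2 * Real.pi * t + m * (2 * Real.pi) := by exact_mod_cast h4
  have hpi := Real.pi_pos
  have h6 : (2 * Real.pi) * (s - t - m) = 0 := by linarith only [h5]
  rcases mul_eq_zero.1 h6 with h7 | h7
  · exact absurd h7 (by positivity)
  · linarith only [h7]

theorem ee_contDiff : ContDiff ℝ ∞ ee := by
  unfold ee
  have h : ContDiff ℝ ∞ (fun t : ℝ => ((2 * Real.pi * t : ℝ) : ℂ)) :=
    Complex.ofRealCLM.contDiff.comp (contDiff_const.mul contDiff_id)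
  exact Complex.contDiff_exp.comp (h.mul contDiff_const)

theorem phiA_eq (w : ℂ) : phiA w = ((Real.sqrt (w.re / Real.pi) : ℝ) : ℂ) * ee w.im := rfl

/-- `π |z|²` -/
noncomputable def ar (z : ℂ) : ℝ := Real.pi * ‖z‖ ^ 2

theorem ar_nonneg (z : ℂ) : 0 ≤ ar z := by unfold ar; positivity

theorem ar_eq_normSq (z : ℂ) : ar z = Real.pi * Complex.normSq z := by
  rw [ar, Complex.normSq_eq_norm_sq]

theorem ar_contDiff : ContDiff ℝ ∞ ar := by
  have : ar = fun z => Real.pi * Complex.normSq z := by funext z; exact ar_eq_normSq z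
  rw [this]
  exact contDiff_const.mul normSq_contDiff

theorem ar_mul_of_norm_one {e z : ℂ} (he : ‖e‖ = 1) : ar (e * z) = ar z := by
  unfold ar; rw [norm_mul, he, one_mul]

theorem ar_mul_of_norm_one' {e z : ℂ} (he : ‖e‖ = 1) : ar (z * e) = ar z := by
  unfold ar; rw [norm_mul, he, mul_one]

theorem ar_phiA {w : ℂ} (hw : 0 < w.re) : ar (phiA w) = w.re := phiA_normSq hw

theorem ar_eq_zero {z : ℂ} : ar z = 0 ↔ z = 0 := by
  unfold ar
  simp [Real.pi_ne_zero]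

theorem ar_pos {z : ℂ} : 0 < ar z ↔ z ≠ 0 := by
  constructor
  · intro h h'
    rw [ar_eq_zero.2 h'] at h
    exact lt_irrefl _ h
  · intro h
    exact lt_of_le_of_ne (ar_nonneg z) fun h' => h (ar_eq_zero.1 h'.symm)

/-- the derivative of `ar` at `z` -/
noncomputable def arD (z : ℂ) : ℂ →L[ℝ] ℝ :=
  (2 * Real.pi) • (z.re • Complex.reCLM + z.im • Complex.imCLM)

theorem arD_apply (z v : ℂ) : arD z v = 2 * Real.pi * (z.re * v.re + z.im * v.im) := by
  simp [arD]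
  ring

theorem ar_hasFDerivAt (z : ℂ) : HasFDerivAt ar (arD z) z := by
  have h := (normSq_hasFDerivAt z).const_mul Real.pi
  have h2 : (fun z : ℂ => Real.pi * Complex.normSq z) = ar := by
    funext z; exact (ar_eq_normSq z).symm
  rw [h2] at h
  refine h.congr_fderiv ?_
  ext
  simp [arD]
  ring

section Slot

variable {E : Type*} [NormedAddCommGroup E] [NormedSpace ℝ E]

/-- the 2-form `da ∧ db` evaluated at `v, w` -/
def wd (a b : E →L[ℝ] ℝ) (v w : E) : ℝ := a v * b w - a w * b v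

theorem ee_comp_hasFDerivAt {ψ : E → ℝ} {ψ' : E →L[ℝ] ℝ} {x : E} (h : HasFDerivAt ψ ψ' x) :
    HasFDerivAt (fun y => ee (ψ y))
      ((2 * Real.pi * Complex.I * ee (ψ x)) • (Complex.ofRealCLM.comp ψ')) x := by
  have h1 : HasFDerivAt (fun y => ((2 * Real.pi * ψ y : ℝ) : ℂ))
      (Complex.ofRealCLM.comp ((2 * Real.pi) • ψ')) x :=
    Complex.ofRealCLM.hasFDerivAt.comp x (h.const_mul (2 * Real.pi))
  have h2 := (h1.mul_const Complex.I).cexp
  refine HasFDerivAt.congr_fderiv (f := fun y => ee (ψ y)) h2 ?_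
  ext v
  simp [ee]
  ring

/-- the derivative of a slot of the form `ee ψ * h` -/
theorem phase_hasFDerivAt {ψ : E → ℝ} {ψ' : E →L[ℝ] ℝ} {h : E → ℂ} {h' : E →L[ℝ] ℂ} {x : E}
    (hψ : HasFDerivAt ψ ψ' x) (hh : HasFDerivAt h h' x) :
    ∃ B : E →L[ℝ] ℂ, HasFDerivAt (fun y => ee (ψ y) * h y) B x ∧
      ∀ v, B v = ee (ψ x) * (h' v + ((2 * Real.pi * ψ' v : ℝ) : ℂ) * (Complex.I * h x)) := by
  refine ⟨_, (ee_comp_hasFDerivAt hψ).mul hh, fun v => ?_⟩
  simp
  ring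

theorem om1_phase_aux (a b z : ℂ) (s t : ℝ) :
    om1 (a + (s : ℂ) * (Complex.I * z)) (b + (t : ℂ) * (Complex.I * z)) =
      om1 a b + t * (z.re * a.re + z.im * a.im) - s * (z.re * b.re + z.im * b.im) := by
  unfold om1
  simp
  ring

/-- a phase adds `d(ar h) ∧ dψ` -/
theorem om1_phase {ψ : E → ℝ} {ψ' : E →L[ℝ] ℝ} {h : E → ℂ} {h' : E →L[ℝ] ℂ} {x : E}
    (hψ : HasFDerivAt ψ ψ' x) (hh : HasFDerivAt h h' x) (v w : E) :
    om1 (fderiv ℝ (fun y => ee (ψ y) * h y) x v) (fderiv ℝ (fun y => ee (ψ y) * h y) x w) =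
      om1 (h' v) (h' w) + wd ((arD (h x)).comp h') ψ' v w := by
  obtain ⟨B, hB, hBv⟩ := phase_hasFDerivAt hψ hh
  rw [hB.fderiv, hBv, hBv, om1_rot, Complex.normSq_eq_norm_sq, ee_norm, om1_phase_aux]
  unfold wd
  simp only [ContinuousLinearMap.comp_apply, arD_apply]
  ring

/-- `phiA` of real functions -/
theorem om1_phiA {a b : E → ℝ} {a' b' : E →L[ℝ] ℝ} {x : E}
    (ha : HasFDerivAt a a' x) (hb : HasFDerivAt b b' x) (hpos : 0 < a x) (v w : E) :
    om1 (fderiv ℝ (fun y => phiA ((a y : ℂ) + (b y : ℂ) * Complex.I)) x v)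
      (fderiv ℝ (fun y => phiA ((a y : ℂ) + (b y : ℂ) * Complex.I)) x w) = wd a' b' v w := by
  have h1 : HasFDerivAt (fun y => ((a y : ℝ) : ℂ) + ((b y : ℝ) : ℂ) * Complex.I)
      (Complex.ofRealCLM.comp a' + (Complex.ofRealCLM.comp b').smulRight Complex.I) x := by
    have h2 : HasFDerivAt (fun y => ((a y : ℝ) : ℂ)) (Complex.ofRealCLM.comp a') x :=
      Complex.ofRealCLM.hasFDerivAt.comp x ha
    have h3 : HasFDerivAt (fun y => ((b y : ℝ) : ℂ)) (Complex.ofRealCLM.comp b') x :=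
      Complex.ofRealCLM.hasFDerivAt.comp x hb
    refine (h2.add (h3.mul_const Complex.I)).congr_fderiv ?_
    ext v
    simp
    ring
  have hre : 0 < (((a x : ℝ) : ℂ) + ((b x : ℝ) : ℂ) * Complex.I).re := by simpa using hpos
  have h4 : HasFDerivAt phiA (fderiv ℝ phiA (((a x : ℝ) : ℂ) + ((b x : ℝ) : ℂ) * Complex.I))
      (((a x : ℝ) : ℂ) + ((b x : ℝ) : ℂ) * Complex.I) :=
    (phiA_hasFDerivAt hre).differentiableAt.hasFDerivAt
  have h5 := h4.comp x h1
  have h6 : HasFDerivAt (fun y => phiA (((a y : ℝ) : ℂ) + ((b y : ℝ) : ℂ) * Complex.I)) _ x := h5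
  rw [h6.fderiv]
  simp only [ContinuousLinearMap.comp_apply]
  rw [phiA_sympl hre]
  unfold om1 wd
  simp
  ring

end Slot

end Vale.Agent.P209.H684
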