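import Vale.Agent.P209.H687.Defs
import Vale.Agent.P209.H721.Seam

/-!
# Row DAT of the interface of model M: existence of the data
-/

namespace Vale.Agent.P209.H684

open Vale.Agent.P209 H687 H686 H721
open scoped ContDiff

/-- one-sided gates exist -/
theorem exists_OG (r δ ε : ℝ) (hr : 0 < r) (hδ : 0 < δ) (hε : 0 < ε) (s : ℝ → ℝ)
    (hsm : ContDiff ℝ ∞ s) (hs0 : ∀ t, 0 ≤ s t) (hs1 : ∀ t, s t ≤ 1)
    (hsδ : ∀ t, |t| ≤ δ → s t = 1) :
    ∃ τ φ S G, OG r δ ε s τ φ S G := by
  obtain ⟨τ, φ, S, G, h⟩ := exists_clockGate r δ ε hr hδ hε s hsm hs0 hs1 hsδ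
  have key : ∀ x : ℂ × ℂ, ‖x.2‖ < r → s x.1.re = 1 →
      ar (τ x.2) ≤ ar (G x).1 ∧ ar (τ x.2) ≤ ar (G x).2 := by
    intro x hx hs
    have hS := h.S_one x hs
    have hn := ar_nonneg (τ x.2)
    have hcase : |x.1.re| < δ ∨ δ ≤ x.1.re ∨ x.1.re ≤ -δ := by
      by_cases h1 : |x.1.re| < δ
      · exact Or.inl h1
      · right
        rcases le_abs.1 (not_lt.1 h1) with h2 | h2
        · exact Or.inl h2
        · right; linarith
    rcases hcase with h1 | h1 | h1
    · exact h.fst_ar x hx h1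
    · have h2 := h.plus x hx h1
      rw [h2, hS]
      refine ⟨?_, ?_⟩
      · simp only
        rw [ar_phiA_re_im (by linarith)]
        linarith
      · simp only
        rw [ar_mul_of_norm_one (ee_norm _)]
    · have h2 := h.minus x hx h1
      rw [h2, hS]
      refine ⟨?_, ?_⟩
      · simp only
        rw [ar_mul_of_norm_one (ee_norm _)]
      · simp only
        rw [ar_phiA_re_im (by linarith)]
        linarith
  exact ⟨τ, φ, S, G,
    { toClockGate := h
      pos1 := fun x hx hs => (key x hx hs).1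
      pos2 := fun x hx hs => (key x hx hs).2 }⟩

/-- the one-sided clock -/
theorem exists_clockDn {a b : ℝ} (hab : a < b) : ∃ s : ℝ → ℝ, ClockDn a b s := by
  have hba : 0 < b - a := sub_pos.2 hab
  refine ⟨fun t => Real.smoothTransition ((b - t) / (b - a)), ?_, fun t => ?_, fun t => ?_,
    fun t ht => ?_, fun t ht => ?_⟩
  · exact Real.smoothTransition.contDiff.comp ((contDiff_const.sub contDiff_id).div_const _)
  · exact Real.smoothTransition.nonneg _
  · exact Real.smoothTransition.le_one _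
  · refine Real.smoothTransition.one_of_one_le ?_
    rw [le_div_iff₀ hba]
    linarith
  · refine Real.smoothTransition.zero_of_nonpos ?_
    exact div_nonpos_of_nonpos_of_nonneg (by linarith) hba.le

theorem stepQ_of_TSpec {η : ℝ} {t t' : ℝ → ℝ} (h : TSpec η t t') : StepQ η t := by
  have hd : ∀ q, deriv t q = t' q := fun q => (h.deriv q).deriv
  refine ⟨h.smooth, h.odd, h.right, fun q => ?_, fun q hq => h.t_nonneg hq, fun q => ?_,
    fun q q' hq => ?_⟩
  · exact (abs_le.1 (h.abs_t_le q)).2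
  · rw [hd]; exact h.nonneg q
  · rw [hd, hd]; exact h.anti q q' hq

theorem invQ_of_TSpec {η : ℝ} {t t' : ℝ → ℝ} (h : TSpec η t t') : InvQ t (qs t) := by
  have hpos : ∀ Λ : ℝ, 0 ≤ Λ → 0 < 1 + t' 0 * Λ := fun Λ hΛ => by
    have := mul_nonneg (h.nonneg 0) hΛ
    linarith
  exact ⟨fun Q Λ _ => h.qs_eq (Q, Λ), fun q Λ hΛ => h.qs_unique (hpos Λ hΛ) rfl,
    fun Q Λ hΛ => h.qs_contDiffAt (hpos Λ hΛ.le)⟩

/-- a symplectic map which is off the origin is uniformly off the origin on smaller discs -/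
theorem exists_low {τ : ℂ → ℂ} (hτ : Continuous τ) {r a : ℝ}
    (hr : ∀ z : ℂ, ar z ≤ a → ‖z‖ < r) (h0 : ∀ z, ‖z‖ < r → τ z ≠ 0) :
    ∃ ρ : ℝ, 0 < ρ ∧ ∀ z : ℂ, ar z ≤ a → ρ ≤ ar (τ z) := by
  have har : Continuous ar := by
    unfold ar
    exact continuous_const.mul (continuous_norm.pow 2)
  have hK : IsCompact {z : ℂ | ar z ≤ a} := by
    refine Metric.isCompact_of_isClosed_isBounded (isClosed_le har continuous_const) ?_
    refine (Metric.isBounded_ball (x := (0 : ℂ)) (r := r)).subset fun z hz => ?_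
    rw [mem_ball_zero_iff]
    exact hr z hz
  rcases Set.eq_empty_or_nonempty {z : ℂ | ar z ≤ a} with he | hne
  · exact ⟨1, one_pos, fun z hz => absurd (show z ∈ {z : ℂ | ar z ≤ a} from hz) (by rw [he]; simp)⟩
  · obtain ⟨z0, hz0, hmin⟩ := hK.exists_isMinOn hne (har.comp hτ).continuousOn
    refine ⟨ar (τ z0), ?_, fun z hz => hmin hz⟩
    have h1 := h0 z0 (hr z0 hz0)
    unfold ar
    have := Real.pi_pos
    have h2 := norm_pos_iff.2 h1
    positivity

/-- **Row DAT.** -/
theorem rowDat : RowDat := by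
  intro R c m η ⟨hm, hmc, hcR, hη, hηm⟩
  have hc : 0 < c := hm.trans hmc
  have hA : 0 < (R + c) / 3 := by linarith
  obtain ⟨t, t', ht⟩ := exists_t hη
  set r : ℝ := (R + c) / 3 + 1 with hrdef
  have hr0 : 0 < r := by linarith
  have hr : ∀ z : ℂ, ar z < (R + c) / 3 → ‖z‖ < r := by
    intro z hz
    unfold ar at hz
    have h1 := norm_nonneg z
    have h2 : ‖z‖ ^ 2 < (R + c) / 3 := by
      nlinarith [Real.pi_gt_three, sq_nonneg ‖z‖]
    nlinarith
  obtain ⟨s1, hs1⟩ := exists_clockDn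
    (show (R - 2 * c) / 3 + m / 4 < (R - 2 * c) / 3 + m / 2 by linarith)
  obtain ⟨s2, hs2⟩ := exists_clockDn (show m / 40 < m / 20 by linarith)
  have hd3 : 0 < m / 80 := by linarith
  have h20 : 0 < m / 100 := by linarith
  obtain ⟨τ2, φ2, S2, g2, og2⟩ := exists_OG r (m / 40) (m / 100) hr0 (by linarith) h20 s2
    hs2.smooth hs2.nonneg hs2.le_one fun t ht => hs2.one t ((le_abs_self t).trans ht)
  obtain ⟨ρ, hρ0, hρ⟩ := exists_low (a := (R + c) / 3 - m / 2) og2.tau.smooth.continuous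
    (fun z hz => hr z (by linarith)) og2.tau_ne
  set ε1 : ℝ := min (m / 100) (ρ / 2) with hε1
  have hε10 : 0 < ε1 := lt_min h20 (by linarith)
  obtain ⟨τ1, φ1, S1, g1, og1⟩ := exists_OG r (m / 40) ε1 hr0 (by linarith) hε10 s1
    hs1.smooth hs1.nonneg hs1.le_one fun t ht => hs1.one t (by
      have := (le_abs_self t).trans ht
      linarith)
  obtain ⟨τ3, φ3, S3, g3, og3⟩ := exists_OG r (m / 80) (m / 100) hr0 hd3 h20 (sgt (m / 80))
    (sgt_contDiff _) (fun t => Real.smoothTransition.nonneg _)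
    (fun t => Real.smoothTransition.le_one _) fun t ht => sgt_one hd3 ht
  exact ⟨{
    t := t
    qs := qs t
    s1 := s1
    s2 := s2
    s3 := sgt (m / 80)
    τ1 := τ1
    φ1 := φ1
    S1 := S1
    g1 := g1
    τ2 := τ2
    φ2 := φ2
    S2 := S2
    g2 := g2
    τ3 := τ3
    φ3 := φ3
    S3 := S3
    g3 := g3
    r := r
    ε1 := ε1
    ht := stepQ_of_TSpec ht
    hqs := invQ_of_TSpec ht
    hr := hr
    hε1 := hε10
    hε1' := min_le_left _ _
    hs1 := hs1
    hs2 := hs2
    hs3 := ⟨sgt_contDiff _, fun t => Real.smoothTransition.nonneg _,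
      fun t => Real.smoothTransition.le_one _, fun t ht => sgt_one hd3 ht,
      fun t ht => sgt_zero hd3 (by linarith)⟩
    og1 := og1
    og2 := og2
    og3 := og3
    low2 := fun z hz => by
      have h1 := hρ z hz
      have h2 : ε1 ≤ ρ / 2 := min_le_right _ _
      linarith }⟩

end Vale.Agent.P209.H684
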