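import Vale.Agent.P209.H684.RemMid

set_option linter.all false

/-!
# Row ML: the middle chart agrees with the left and with the right chart
-/

namespace Vale.Agent.P209.H684.Mid

open Vale.Agent.P209 H684 H578 H721 H974 H686 H687
open Vale.Agent.P209.Strong hiding chi
open scoped ContDiff

variable {R c m η : ℝ} (D : Dat R c m η)

theorem XT_pos (hH : Hyp R c m η) {v : Fin 3 → ℂ} (hu : uu v ∈ Vm R c m)
    (hk : kap R c v < -(m / 40)) : 0 < (XT D v 0).re := by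
  have hA := mAr D hH hu
  have h1 := hA.a_lo
  have h2 := D.hε1
  have h3 := hH.1
  rw [XT_0_re]
  unfold kap at hk
  linarith

/-- the sum of the areas of the static form -/
theorem EL_sum (hH : Hyp R c m η) {v : Fin 3 → ℂ} (hu : uu v ∈ Vm R c m)
    (hk : kap R c v < -(m / 40)) :
    ar (EL c D.g2 D.g1 (toK R c v) 0) + ar (EL c D.g2 D.g1 (toK R c v) 1) +
      ar (EL c D.g2 D.g1 (toK R c v) 2) =
      ar (XT D v 2) + (XT D v 0).re + ar (XT D v 1) := by
  rw [EL_static D hH hu hk.le]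
  have h1 : ar (ph0 (XT D v) 1) = (XT D v 0).re := ar_phiA (XT_pos D hH hu hk)
  rw [h1]
  rfl

theorem ML_left (hH : Hyp R c m η) {v : Fin 3 → ℂ} (hv : v ∈ H687.DM R c m)
    (hq : qst D v < -(η / 2)) : D.cM v = D.cL v ∧ v ∈ D.DX := by
  have hA := mAr D hH hv.1
  refine ⟨?_, hv.1, ?_⟩
  · rw [cM_eq, YT_left D hA hq, ← EL_static D hH hv.1 hv.2.1.le]
    rfl
  · rw [EL_sum D hH hv.1 hv.2.1, XT_0_re]
    have h1 := qst_eq D hA
    rw [t_left D hq.le] at h1
    have h2 := abs_lt.1 (qst_lt D hH hv)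
    have h3 := hA.diff
    linarith [h2.1, h2.2]

theorem yT_mir (v : Fin 3 → ℂ) : yT D (mir v) =
    ((yT D v).1 + ((2 * (v 0).im : ℝ) : ℂ) * Complex.I, (yT D v).2) := by
  refine Prod.ext ?_ rfl
  have h1 : (mir v 0).im = -(v 0).im := mir_im v
  show (((ar (D.τ2 (v 2)) + ar (v 1) - c : ℝ) : ℂ) +
      ((D.φ2 (v 2) - (mir v 0).im : ℝ) : ℂ) * Complex.I) =
    (((ar (D.τ2 (v 2)) + ar (v 1) - c : ℝ) : ℂ) +
      ((D.φ2 (v 2) - (v 0).im : ℝ) : ℂ) * Complex.I) + ((2 * (v 0).im : ℝ) : ℂ) * Complex.I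
  rw [h1]
  push_cast
  ring

theorem XT_mir (v : Fin 3 → ℂ) :
    XT D (mir v) 1 = ee (2 * (v 0).im) * XT D v 1 ∧
    XT D (mir v) 2 = ee (-(2 * (v 0).im)) * XT D v 2 := by
  have h := D.og1.rot (yT D v) (2 * (v 0).im)
  rw [← yT_mir] at h
  constructor
  · rw [XT_1, XT_1, h]
  · rw [XT_2, XT_2, h]

theorem XT_mir_0 (v : Fin 3 → ℂ) : XT D (mir v) 0 =
    ((-(v 0).re + (R + c) / 2 + (ar (D.τ2 (v 2)) + ar (v 1) - c) : ℝ) : ℂ) +
      ((-(v 0).im : ℝ) : ℂ) * Complex.I := by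
  rw [XT_0, mir_re, mir_im]
  rfl

theorem conj_uph_ee (t : ℝ) (z : ℂ) : (starRingEnd ℂ) (uph (ee t * z)) =
    ee (-t) * (starRingEnd ℂ) (uph z) := by
  rw [uph_mul_ee, map_mul, conj_ee]

theorem ML_right (hH : Hyp R c m η) {v : Fin 3 → ℂ} (hv : v ∈ H687.DM R c m)
    (hq : η / 2 < qst D v) : D.cM v = D.cR v ∧ mir v ∈ D.DX := by
  have hA := mAr D hH hv.1
  have hum : uu (mir v) ∈ Vm R c m := by rw [uu_mir]; exact hv.1
  have hkm : kap R c (mir v) < -(m / 40) := by rw [kap_mir]; exact hv.2.2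
  have h1 := qst_eq D hA
  rw [D.ht.one _ hq.le] at h1
  have h2 := abs_lt.1 (qst_lt D hH hv)
  have h3 := hA.diff
  obtain ⟨m1, m2⟩ := XT_mir D v
  have am1 : ar (XT D (mir v) 1) = ar (XT D v 1) := by rw [m1, ar_mul_of_norm_one (ee_norm _)]
  have am2 : ar (XT D (mir v) 2) = ar (XT D v 2) := by rw [m2, ar_mul_of_norm_one (ee_norm _)]
  have hm0 : (XT D (mir v) 0).re =
      -(v 0).re + (R + c) / 2 + (ar (D.τ2 (v 2)) + ar (v 1) - c) := by
    rw [XT_mir_0, a1_re]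
  have hpm := XT_pos D hH hum hkm
  refine ⟨?_, hum, ?_⟩
  · obtain ⟨r0, r1, r2⟩ := YT_right D hA hq
    have hY0 : YT D v 0 = (((R - ar (XT D v 1) - ar (XT D v 2)) / 2 + qst D v : ℝ) : ℂ) +
        (((v 0).im : ℝ) : ℂ) * Complex.I := by
      rw [r0, XT_0]
      apply Complex.ext
      · rw [Complex.add_re, a1_re, a1_re, Complex.ofReal_re]
        linarith
      · rw [Complex.add_im, a1_im, a1_im, Complex.ofReal_im, add_zero]
    have hcR : D.cR v = swp (gau R (ph0 (XT D (mir v)))) := by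
      rw [← EL_static D hH hum hkm.le]
      rfl
    have aY0 : ar (ph0 (YT D v) 0) = ar (XT D v 2) := ar_YT2 D v
    have aY2 : ar (ph0 (YT D v) 2) = ar (XT D v 1) := ar_YT1 D v
    have aY1 : ar (ph0 (YT D v) 1) = (R - ar (XT D v 1) - ar (XT D v 2)) / 2 + qst D v := by
      show ar (phiA (YT D v 0)) = _
      rw [hY0]
      exact ar_phiA_re_im (by linarith [h2.1])
    have aM1 : ar (ph0 (XT D (mir v)) 1) =
        -(v 0).re + (R + c) / 2 + (ar (D.τ2 (v 2)) + ar (v 1) - c) := by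
      rw [← hm0]
      exact ar_phiA hpm
    have aM0 : ar (ph0 (XT D (mir v)) 0) = ar (XT D v 2) := am2
    have aM2 : ar (ph0 (XT D (mir v)) 2) = ar (XT D v 1) := am1
    have cY : (starRingEnd ℂ) (uph (ph0 (YT D v) 2)) =
        ee (-(3 * (v 0).im)) * (starRingEnd ℂ) (uph (XT D v 1)) := by
      show (starRingEnd ℂ) (uph (YT D v 1)) = _
      rw [r1, conj_uph_ee]
    have cM' : (starRingEnd ℂ) (uph (ph0 (XT D (mir v)) 2)) =
        ee (-(2 * (v 0).im)) * (starRingEnd ℂ) (uph (XT D v 1)) := by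
      show (starRingEnd ℂ) (uph (XT D (mir v) 1)) = _
      rw [m1, conj_uph_ee]
    rw [cM_eq, hcR]
    have g0 : gau R (ph0 (YT D v)) 0 = swp (gau R (ph0 (XT D (mir v)))) 0 := by
      show ph0 (YT D v) 0 * _ = ph0 (XT D (mir v)) 0 * _
      rw [cY, cM']
      show YT D v 2 * _ = XT D (mir v) 2 * _
      rw [r2, m2]
      have e1 : ee (-(v 0).im) * ee (-(3 * (v 0).im)) =
          ee (-(2 * (v 0).im)) * ee (-(2 * (v 0).im)) := by
        rw [← ee_add, ← ee_add]; congr 1; ring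
      linear_combination (XT D v 2 * (starRingEnd ℂ) (uph (XT D v 1))) * e1
    have g1 : gau R (ph0 (YT D v)) 1 = swp (gau R (ph0 (XT D (mir v)))) 1 := by
      show ph0 (YT D v) 1 * _ = ((Real.sqrt ((R - ar (ph0 (XT D (mir v)) 0) -
        ar (ph0 (XT D (mir v)) 1) - ar (ph0 (XT D (mir v)) 2)) / Real.pi) : ℝ) : ℂ) * _
      rw [cY, cM', aM0, aM1, aM2]
      show phiA (YT D v 0) * _ = _
      rw [hY0, phiA_polar]
      have e0 : (R - ar (XT D v 1) - ar (XT D v 2)) / 2 + qst D v = R - ar (XT D v 2) -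
          (-(v 0).re + (R + c) / 2 + (ar (D.τ2 (v 2)) + ar (v 1) - c)) - ar (XT D v 1) := by
        linarith
      have e1 : ee (v 0).im * ee (-(3 * (v 0).im)) = ee (-(2 * (v 0).im)) := by
        rw [← ee_add]; congr 1; ring
      rw [e0, ← e1]
      ring
    have g2 : gau R (ph0 (YT D v)) 2 = swp (gau R (ph0 (XT D (mir v)))) 2 := by
      show ((Real.sqrt ((R - ar (ph0 (YT D v) 0) -
        ar (ph0 (YT D v) 1) - ar (ph0 (YT D v) 2)) / Real.pi) : ℝ) : ℂ) * _ =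
        ph0 (XT D (mir v)) 1 * _
      rw [cY, cM', aY0, aY1, aY2]
      show _ = phiA (XT D (mir v) 0) * _
      rw [XT_mir_0, phiA_polar]
      have e0 : -(v 0).re + (R + c) / 2 + (ar (D.τ2 (v 2)) + ar (v 1) - c) = R -
          ar (XT D v 2) - ((R - ar (XT D v 1) - ar (XT D v 2)) / 2 + qst D v) -
          ar (XT D v 1) := by
        linarith
      have e1 : ee (-(v 0).im) * ee (-(2 * (v 0).im)) = ee (-(3 * (v 0).im)) := by
        rw [← ee_add]; congr 1; ring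
      rw [e0, ← e1]
      ring
    funext j
    fin_cases j
    · exact g0
    · exact g1
    · exact g2
  · rw [EL_sum D hH hum hkm, hm0, am1, am2]
    linarith [h2.1, h2.2]

/-- **Row ML.** -/
theorem rowML : RowML := by
  intro R c m η D hH v hv
  have hA := mAr D hH hv.1
  have hq := qim_cM D hH hv
  have hL := hA.L_le
  have hL0 := hA.L_pos
  refine ⟨fun h => (ML_left D hH hv ?_).1, fun h => (ML_right D hH hv ?_).1,
    fun h => ML_left D hH hv (by rwa [hq] at h), fun h => ML_right D hH hv (by rwa [hq] at h)⟩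
  · have h1 : (v 0).re + (c + 3 * ar (XT D v 1) - ar (XT D v 2)) / 2 < -(η / 2) := by linarith
    have h2 : D.qs ((v 0).re + (c + 3 * ar (XT D v 1) - ar (XT D v 2)) / 2 +
        D.t ((v 0).re + (c + 3 * ar (XT D v 1) - ar (XT D v 2)) / 2) *
          (c + 3 * ar (XT D v 1) - ar (XT D v 2)), c + 3 * ar (XT D v 1) - ar (XT D v 2)) = _ :=
      D.hqs.uniq _ _ hL0.le
    rw [t_left D h1.le] at h2
    unfold qst
    have h3 : (v 0).re + (c + 3 * ar (XT D v 1) - ar (XT D v 2)) / 2 +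
        -(1 / 2) * (c + 3 * ar (XT D v 1) - ar (XT D v 2)) = (v 0).re := by ring
    rw [h3] at h2
    rw [h2]
    exact h1
  · have h1 : η / 2 < (v 0).re - (c + 3 * ar (XT D v 1) - ar (XT D v 2)) / 2 := by linarith
    have h2 : D.qs ((v 0).re - (c + 3 * ar (XT D v 1) - ar (XT D v 2)) / 2 +
        D.t ((v 0).re - (c + 3 * ar (XT D v 1) - ar (XT D v 2)) / 2) *
          (c + 3 * ar (XT D v 1) - ar (XT D v 2)), c + 3 * ar (XT D v 1) - ar (XT D v 2)) = _ :=
      D.hqs.uniq _ _ hL0.le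
    rw [D.ht.one _ h1.le] at h2
    unfold qst
    have h3 : (v 0).re - (c + 3 * ar (XT D v 1) - ar (XT D v 2)) / 2 +
        1 / 2 * (c + 3 * ar (XT D v 1) - ar (XT D v 2)) = (v 0).re := by ring
    rw [h3] at h2
    rw [h2]
    exact h1

end Vale.Agent.P209.H684.Mid
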