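import Vale.Agent.P209.H684.Model3

/-!
# The model map: it is symplectic
-/

namespace Vale.Agent.P209.H684

open Vale.Agent.P209 Vale.Agent.P209.Strong
open scoped ContDiff

section Gen

variable {E : Type*} [NormedAddCommGroup E] [NormedSpace ℝ E] {n : ℕ}

theorem omega_eq_sum (v w : Fin n → ℂ) : omega v w = ∑ j, om1 (v j) (w j) := rfl

theorem omega_perm (σ : Equiv.Perm (Fin n)) (v w : Fin n → ℂ) :
    omega (fun j => v (σ j)) (fun j => w (σ j)) = omega v w := by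
  rw [omega_eq_sum, omega_eq_sum]
  exact Equiv.sum_comp σ (fun j => om1 (v j) (w j))

theorem slot_hasFDerivAt {f : E → (Fin n → ℂ)} {f' : E →L[ℝ] (Fin n → ℂ)} {x : E}
    (hf : HasFDerivAt f f' x) (j : Fin n) :
    HasFDerivAt (fun y => f y j) ((ContinuousLinearMap.proj j).comp f') x :=
  hasFDerivAt_pi'.1 hf j

theorem slot_fderiv {f : E → (Fin n → ℂ)} {x : E} (hf : DifferentiableAt ℝ f x) (j : Fin n)
    (v : E) : fderiv ℝ f x v j = fderiv ℝ (fun y => f y j) x v := by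
  rw [(slot_hasFDerivAt hf.hasFDerivAt j).fderiv]
  rfl

/-- the 2-form of a map is the sum over the slots -/
theorem omega_fderiv {f : E → (Fin n → ℂ)} {x : E} (hf : DifferentiableAt ℝ f x) (v w : E) :
    omega (fderiv ℝ f x v) (fderiv ℝ f x w) =
      ∑ j, om1 (fderiv ℝ (fun y => f y j) x v) (fderiv ℝ (fun y => f y j) x w) := by
  rw [omega_eq_sum]
  refine Finset.sum_congr rfl fun j _ => ?_
  rw [slot_fderiv hf, slot_fderiv hf]

theorem wd_sum {ι : Type*} (s : Finset ι) (a : ι → E →L[ℝ] ℝ) (b : E →L[ℝ] ℝ) (v w : E) :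
    wd (∑ j ∈ s, a j) b v w = ∑ j ∈ s, wd (a j) b v w := by
  unfold wd
  simp only [ContinuousLinearMap.sum_apply, Finset.sum_sub_distrib, Finset.sum_mul]

/-- a common phase does not change the 2-form of a map into a sphere -/
theorem omega_phase {f : E → (Fin n → ℂ)} {x : E} (hf : DifferentiableAt ℝ f x) {ψ : E → ℝ}
    {ψ' : E →L[ℝ] ℝ} (hψ : HasFDerivAt ψ ψ' x) {R : ℝ}
    (hR : ∀ᶠ y in nhds x, ∑ j, ar (f y j) = R) (v w : E) :
    omega (fderiv ℝ (fun y j => ee (ψ y) * f y j) x v)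
      (fderiv ℝ (fun y j => ee (ψ y) * f y j) x w) = omega (fderiv ℝ f x v) (fderiv ℝ f x w) := by
  have hsl : ∀ j, HasFDerivAt (fun y => f y j) (fderiv ℝ (fun y => f y j) x) x := fun j =>
    (slot_hasFDerivAt hf.hasFDerivAt j).differentiableAt.hasFDerivAt
  have hd : DifferentiableAt ℝ (fun y j => ee (ψ y) * f y j) x := by
    rw [differentiableAt_pi]
    intro j
    obtain ⟨B, hB, -⟩ := phase_hasFDerivAt hψ (hsl j)
    exact hB.differentiableAt
  rw [omega_fderiv hd, omega_fderiv hf]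
  simp only [om1_phase hψ (hsl _)]
  rw [Finset.sum_add_distrib, ← wd_sum]
  have hsum : HasFDerivAt (fun y => ∑ j, ar (f y j))
      (∑ j, (arD (f x j)).comp (fderiv ℝ (fun y => f y j) x)) x := by
    refine HasFDerivAt.fun_sum fun j _ => ?_
    exact (ar_hasFDerivAt (f x j)).comp x (hsl j)
  have hzero : (∑ j, (arD (f x j)).comp (fderiv ℝ (fun y => f y j) x)) = 0 := by
    have h1 : HasFDerivAt (fun y => ∑ j, ar (f y j)) (0 : E →L[ℝ] ℝ) x :=
      (hasFDerivAt_const R x).congr_of_eventuallyEq hR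
    exact hsum.unique h1
  rw [hzero]
  unfold wd
  simp

end Gen

variable {k : ℕ} {R r δ ε c : ℝ} {G : ℂ × ℂ → ℂ × ℂ}

theorem pr_hasFDerivAt (b : Fin (k + 3)) (w : Fin (k + 3) → ℂ) :
    HasFDerivAt (fun w : Fin (k + 3) → ℂ => w b)
      (ContinuousLinearMap.proj (R := ℝ) (φ := fun _ : Fin (k + 3) => ℂ) b) w :=
  (ContinuousLinearMap.proj (R := ℝ) (φ := fun _ : Fin (k + 3) => ℂ) b).hasFDerivAt

theorem Fr_contDiff (R : ℝ) (m : ℤ) :
    ContDiff ℝ ∞ (Fr R m : (Fin (k + 3) → ℂ) → (Fin (k + 3) → ℂ)) := by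
  rw [contDiff_pi]
  intro b
  by_cases hb : b = 0
  · subst hb
    have : (fun w : Fin (k + 3) → ℂ => Fr R m w 0) =
        fun w => w 0 - ((m * Lf R w : ℝ) : ℂ) := by funext w; exact Fr_zero R m w
    rw [this]
    exact (slot_contDiff 0).sub (Complex.ofRealCLM.contDiff.comp
      (contDiff_const.mul Lf_contDiff))
  · have : (fun w : Fin (k + 3) → ℂ => Fr R m w b) =
        fun w => ee (-(m * cf b * (w 0).im)) * w b := by funext w; exact Fr_ne R m w hb
    rw [this]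
    exact (ee_contDiff.comp ((contDiff_const.mul
      (Complex.imCLM.contDiff.comp (slot_contDiff 0))).neg)).mul (slot_contDiff _)

theorem Fr_sympl (R : ℝ) (m : ℤ) (x : Fin (k + 3) → ℂ) (v w : Fin (k + 3) → ℂ) :
    omega (fderiv ℝ (Fr R m) x v) (fderiv ℝ (Fr R m) x w) = omega v w := by
  have hd : DifferentiableAt ℝ (Fr R m : (Fin (k + 3) → ℂ) → _) x :=
    (Fr_contDiff R m).differentiable (by simp) x
  set pr : Fin (k + 3) → ((Fin (k + 3) → ℂ) →L[ℝ] ℂ) := fun b =>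
    ContinuousLinearMap.proj (R := ℝ) (φ := fun _ : Fin (k + 3) => ℂ) b with hpr
  set Θ : (Fin (k + 3) → ℂ) →L[ℝ] ℝ := Complex.imCLM.comp (pr 0) with hΘ
  set A : Fin (k + 3) → ((Fin (k + 3) → ℂ) →L[ℝ] ℝ) := fun b => (arD (x b)).comp (pr b) with hA
  have hθ : HasFDerivAt (fun w : Fin (k + 3) → ℂ => (w 0).im) Θ x := Θ.hasFDerivAt
  have hL : HasFDerivAt (Lf R : (Fin (k + 3) → ℂ) → ℝ) (-∑ b, (cf b : ℝ) • A b) x := by
    have h1 : HasFDerivAt (fun w : Fin (k + 3) → ℂ => ∑ b, (cf b : ℝ) * ar (w b))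
        (∑ b, (cf b : ℝ) • A b) x := by
      refine HasFDerivAt.fun_sum fun b _ => ?_
      have h2 := ((ar_hasFDerivAt (x b)).comp x (pr_hasFDerivAt b x)).const_mul (cf b : ℝ)
      exact h2
    exact h1.const_sub R
  rw [omega_fderiv hd, omega_eq_sum, Fin.sum_univ_succ, Fin.sum_univ_succ (n := k + 2)]
  -- slot 0
  have h0 : om1 (fderiv ℝ (fun y => Fr R m y 0) x v) (fderiv ℝ (fun y => Fr R m y 0) x w) =
      om1 (v 0) (w 0) + m * ∑ b : Fin (k + 2), (cf b.succ : ℝ) * wd (A b.succ) Θ v w := by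
    have e1 : (fun y : Fin (k + 3) → ℂ => Fr R m y 0) =
        fun y => y 0 - ((m * Lf R y : ℝ) : ℂ) := by funext y; exact Fr_zero R m y
    have e2 : HasFDerivAt (fun y : Fin (k + 3) → ℂ => y 0 - ((m * Lf R y : ℝ) : ℂ))
        (pr 0 - Complex.ofRealCLM.comp ((m : ℝ) • (-∑ b, (cf b : ℝ) • A b))) x :=
      (pr_hasFDerivAt 0 x).sub (Complex.ofRealCLM.hasFDerivAt.comp x (hL.const_mul (m : ℝ)))
    rw [e1, e2.fderiv]
    have e3 : ∀ v w : Fin (k + 3) → ℂ, (∑ b, (cf b : ℝ) • A b) v * (w 0).im -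
        (∑ b, (cf b : ℝ) • A b) w * (v 0).im =
        ∑ b : Fin (k + 2), (cf b.succ : ℝ) * wd (A b.succ) Θ v w := by
      intro v w
      have e4 := wd_sum Finset.univ (fun b => (cf b : ℝ) • A b) Θ v w
      have e5 : wd (∑ b, (cf b : ℝ) • A b) Θ v w = (∑ b, (cf b : ℝ) • A b) v * (w 0).im -
        (∑ b, (cf b : ℝ) • A b) w * (v 0).im := rfl
      rw [← e5, e4, Fin.sum_univ_succ]
      have e6 : wd ((cf (0 : Fin (k + 3)) : ℝ) • A 0) Θ v w = 0 := by
        rw [cf_zero]; unfold wd; simp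
      rw [e6, zero_add]
      refine Finset.sum_congr rfl fun b _ => ?_
      unfold wd
      simp only [smul_apply, smul_eq_mul]
      ring
    rw [← e3 v w]
    unfold om1
    simp only [sub_apply, ContinuousLinearMap.comp_apply, smul_apply, neg_apply, hpr,
      ContinuousLinearMap.proj_apply, Complex.ofRealCLM_apply, Complex.sub_re, Complex.sub_im,
      Complex.ofReal_re, Complex.ofReal_im, smul_eq_mul]
    ring
  have hs : ∀ b : Fin (k + 2), om1 (fderiv ℝ (fun y => Fr R m y b.succ) x v)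
      (fderiv ℝ (fun y => Fr R m y b.succ) x w) =
      om1 (v b.succ) (w b.succ) - m * ((cf b.succ : ℝ) * wd (A b.succ) Θ v w) := by
    intro b
    have e1 : (fun y : Fin (k + 3) → ℂ => Fr R m y b.succ) =
        fun y => ee (-(m * cf b.succ * (y 0).im)) * y b.succ := by
      funext y; exact Fr_ne R m y (Fin.succ_ne_zero _)
    have e2 : HasFDerivAt (fun y : Fin (k + 3) → ℂ => -((m : ℝ) * cf b.succ * (y 0).im))
        (-(((m : ℝ) * cf b.succ) • Θ)) x := (hθ.const_mul _).neg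
    rw [e1, om1_phase e2 (pr_hasFDerivAt b.succ x)]
    have e3 : wd ((arD (x b.succ)).comp (ContinuousLinearMap.proj (R := ℝ)
        (φ := fun _ : Fin (k + 3) => ℂ) b.succ)) (-(((m : ℝ) * cf b.succ) • Θ)) v w =
        - (m * ((cf b.succ : ℝ) * wd (A b.succ) Θ v w)) := by
      unfold wd
      simp only [neg_apply, smul_apply, smul_eq_mul, hA, hpr]
      ring
    rw [e3]
    simp only [ContinuousLinearMap.proj_apply]
    ring
  rw [h0, Finset.sum_congr rfl fun b _ => hs b, Finset.sum_sub_distrib, ← Finset.mul_sum]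
  ring

theorem Tm_sympl (R : ℝ) (m : ℤ) (x : Fin (k + 3) → ℂ) (v w : Fin (k + 3) → ℂ) :
    omega (fderiv ℝ (Tm R m) x v) (fderiv ℝ (Tm R m) x w) = omega v w := by
  have hd : DifferentiableAt ℝ (Fr R m : (Fin (k + 3) → ℂ) → _) x :=
    (Fr_contDiff R m).differentiable (by simp) x
  have h1 : HasFDerivAt (Tm R m) (ContinuousLinearMap.pi fun b =>
      (ContinuousLinearMap.proj (R := ℝ) (φ := fun _ : Fin (k + 3) => ℂ) (swm m b)).comp
        (fderiv ℝ (Fr R m) x)) x := by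
    rw [hasFDerivAt_pi']
    intro b
    exact slot_hasFDerivAt hd.hasFDerivAt (swm m b)
  rw [h1.fderiv, ← Fr_sympl R m x v w, ← omega_perm (swm m) (fderiv ℝ (Fr R m) x v)]
  rfl

section

variable (hG : GateSpec r δ ε G)

include hG in
theorem Bs_sympl {y : Fin (k + 3) → ℂ} (hr : ‖y 1‖ < r) (h3 : 0 < s3 R G y)
    (v w : Fin (k + 3) → ℂ) :
    omega (fderiv ℝ (Bs R G) y v) (fderiv ℝ (Bs R G) y w) = omega v w := by
  have hpi := Real.pi_pos
  have hd : DifferentiableAt ℝ (Bs R G) y := (Bs_contDiffAt hG hr h3).differentiableAt (by simp)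
  set P : (Fin (k + 3) → ℂ) →L[ℝ] ℂ × ℂ :=
    (ContinuousLinearMap.proj (R := ℝ) (φ := fun _ : Fin (k + 3) => ℂ) 0).prod
    (ContinuousLinearMap.proj (R := ℝ) (φ := fun _ : Fin (k + 3) => ℂ) 1) with hP
  have hg0 : HasFDerivAt G (fderiv ℝ G (P y)) (P y) :=
    ((hG.smooth (y 0, y 1) hr).differentiableAt (by simp)).hasFDerivAt
  have hg : HasFDerivAt (fun y : Fin (k + 3) → ℂ => G (y 0, y 1))
      ((fderiv ℝ G (P y)).comp P) y := hg0.comp y P.hasFDerivAt
  have hg1 : HasFDerivAt (fun y : Fin (k + 3) → ℂ => (G (y 0, y 1)).1)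
      ((ContinuousLinearMap.fst ℝ ℂ ℂ).comp ((fderiv ℝ G (P y)).comp P)) y :=
    (ContinuousLinearMap.fst ℝ ℂ ℂ).hasFDerivAt.comp y hg
  have hg2 : HasFDerivAt (fun y : Fin (k + 3) → ℂ => (G (y 0, y 1)).2)
      ((ContinuousLinearMap.snd ℝ ℂ ℂ).comp ((fderiv ℝ G (P y)).comp P)) y :=
    (ContinuousLinearMap.snd ℝ ℂ ℂ).hasFDerivAt.comp y hg
  have hs : DifferentiableAt ℝ (fun y => Real.sqrt (s3 R G y / Real.pi)) y :=
    (((s3_contDiffAt hG hr).div_const _).sqrt (by positivity)).differentiableAt (by simp)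
  have hs3 : HasFDerivAt (fun y => ((Real.sqrt (s3 R G y / Real.pi) : ℝ) : ℂ))
      (Complex.ofRealCLM.comp (fderiv ℝ (fun y => Real.sqrt (s3 R G y / Real.pi)) y)) y :=
    Complex.ofRealCLM.hasFDerivAt.comp y hs.hasFDerivAt
  rw [omega_fderiv hd, Fin.sum_univ_succ, Fin.sum_univ_succ, Fin.sum_univ_succ,
    Fin.sum_univ_succ, omega_eq_sum, Fin.sum_univ_succ, Fin.sum_univ_succ, Fin.sum_univ_succ]
  have e0 : (fun y : Fin (k + 3) → ℂ => Bs R G y 0) = fun y => (G (y 0, y 1)).1 := rfl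
  have e1 : (fun y : Fin (k + 3) → ℂ => Bs R G y (Fin.succ 0)) = fun y => y 2 := rfl
  have e2 : (fun y : Fin (k + 3) → ℂ => Bs R G y (Fin.succ (Fin.succ 0))) =
      fun y => (G (y 0, y 1)).2 := rfl
  have e3 : (fun y : Fin (k + 3) → ℂ => Bs R G y (Fin.succ (Fin.succ (Fin.succ 0)))) =
      fun y => ((Real.sqrt (s3 R G y / Real.pi) : ℝ) : ℂ) := rfl
  have e4 : ∀ j : Fin k, (fun y : Fin (k + 3) → ℂ => Bs R G y j.succ.succ.succ.succ) =
      fun y => y j.succ.succ.succ := fun _ => rfl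
  have q0 : (fderiv ℝ (fun y : Fin (k + 3) → ℂ => y 2) y) =
      ContinuousLinearMap.proj (R := ℝ) (φ := fun _ : Fin (k + 3) => ℂ) 2 :=
    (pr_hasFDerivAt 2 y).fderiv
  have q4 : ∀ j : Fin k, (fderiv ℝ (fun y : Fin (k + 3) → ℂ => y j.succ.succ.succ) y) =
      ContinuousLinearMap.proj (R := ℝ) (φ := fun _ : Fin (k + 3) => ℂ) j.succ.succ.succ :=
    fun j => (pr_hasFDerivAt _ y).fderiv
  rw [e0, e1, e2, e3, hg1.fderiv, hg2.fderiv, hs3.fderiv, q0]
  have h5 := hG.sympl (y 0, y 1) hr (v 0, v 1) (w 0, w 1)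
  unfold om2 at h5
  have h6 : om1 ((Complex.ofRealCLM.comp (fderiv ℝ (fun y => Real.sqrt (s3 R G y / Real.pi)) y)) v)
      ((Complex.ofRealCLM.comp (fderiv ℝ (fun y => Real.sqrt (s3 R G y / Real.pi)) y)) w) = 0 := by
    simp only [ContinuousLinearMap.comp_apply, Complex.ofRealCLM_apply]
    unfold om1
    simp
  rw [h6]
  have h7 : om1 (((ContinuousLinearMap.fst ℝ ℂ ℂ).comp ((fderiv ℝ G (P y)).comp P)) v)
      (((ContinuousLinearMap.fst ℝ ℂ ℂ).comp ((fderiv ℝ G (P y)).comp P)) w) +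
      om1 (((ContinuousLinearMap.snd ℝ ℂ ℂ).comp ((fderiv ℝ G (P y)).comp P)) v)
      (((ContinuousLinearMap.snd ℝ ℂ ℂ).comp ((fderiv ℝ G (P y)).comp P)) w) =
      om1 (v 0) (w 0) + om1 (v 1) (w 1) := h5
  have h8 : ∀ j : Fin k, om1 (fderiv ℝ (fun y => Bs R G y j.succ.succ.succ.succ) y v)
      (fderiv ℝ (fun y => Bs R G y j.succ.succ.succ.succ) y w) =
      om1 (v j.succ.succ.succ) (w j.succ.succ.succ) := by
    intro j
    rw [e4 j, q4 j]
    rfl
  rw [Finset.sum_congr rfl fun j _ => h8 j]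
  have h9 : om1 ((ContinuousLinearMap.proj (R := ℝ) (φ := fun _ : Fin (k + 3) => ℂ) 2) v)
      ((ContinuousLinearMap.proj (R := ℝ) (φ := fun _ : Fin (k + 3) => ℂ) 2) w) =
      om1 (v 2) (w 2) := rfl
  rw [h9]
  have h10 : om1 (v (Fin.succ 0)) (w (Fin.succ 0)) = om1 (v 1) (w 1) := rfl
  have h11 : om1 (v (Fin.succ (Fin.succ 0))) (w (Fin.succ (Fin.succ 0))) = om1 (v 2) (w 2) := rfl
  rw [h10, h11]
  linarith

include hG in
theorem Em_sympl (hP : Par R r δ ε c) (m : ℤ) (x : Fin (k + 3) → ℂ) (hx : c < Lf R x)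
    (h : |(x 0).re - m * Lf R x| < Lf R x - δ - ε) (v w : Fin (k + 3) → ℂ) :
    omega (fderiv ℝ (Em R G m) x v) (fderiv ℝ (Em R G m) x w) = omega v w := by
  have h3 := Tm_s3_pos hG hP m x hx h
  obtain ⟨hR, hδ, hε, hc⟩ := hP
  have hP : Par R r δ ε c := ⟨hR, hδ, hε, hc⟩
  have hL : 0 < Lf R x := by linarith
  have hr1 : ‖Tm R m x 1‖ < r := norm_Tm_lt hR hL m one_ne'
  have hB : HasFDerivAt (Bs R G) (fderiv ℝ (Bs R G) (Tm R m x)) (Tm R m x) :=
    ((Bs_contDiffAt hG hr1 h3).differentiableAt (by simp)).hasFDerivAt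
  have hT : HasFDerivAt (Tm R m) (fderiv ℝ (Tm R m) x) x :=
    ((Tm_contDiff R m).differentiable (by simp) x).hasFDerivAt
  have hF : HasFDerivAt (fun w => Bs R G (Tm R m w))
      ((fderiv ℝ (Bs R G) (Tm R m x)).comp (fderiv ℝ (Tm R m) x)) x := hB.comp x hT
  set σ : Equiv.Perm (Fin (k + 4)) := cyc ^ m with hσ
  have hF' : HasFDerivAt (fun w j => Bs R G (Tm R m w) (σ j))
      (ContinuousLinearMap.pi fun j =>
        (ContinuousLinearMap.proj (R := ℝ) (φ := fun _ : Fin (k + 4) => ℂ) (σ j)).comp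
        ((fderiv ℝ (Bs R G) (Tm R m x)).comp (fderiv ℝ (Tm R m) x))) x := by
    rw [hasFDerivAt_pi']
    intro j
    exact slot_hasFDerivAt hF (σ j)
  set Θ : (Fin (k + 3) → ℂ) →L[ℝ] ℝ := Complex.imCLM.comp
    (ContinuousLinearMap.proj (R := ℝ) (φ := fun _ : Fin (k + 3) => ℂ) 0) with hΘ
  have hθ : HasFDerivAt (fun w : Fin (k + 3) → ℂ => (w 0).im) Θ x := Θ.hasFDerivAt
  have hθ' : HasFDerivAt (fun w : Fin (k + 3) → ℂ => (m : ℝ) * (w 0).im) ((m : ℝ) • Θ) x :=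
    hθ.const_mul _
  have hLc : Continuous (Lf R : (Fin (k + 3) → ℂ) → ℝ) := Lf_contDiff.continuous
  have hrc : Continuous (fun w : Fin (k + 3) → ℂ => (w 0).re) :=
    Complex.continuous_re.comp (continuous_apply 0)
  have o1 : IsOpen {w : Fin (k + 3) → ℂ | c < Lf R w} := isOpen_lt continuous_const hLc
  have o2 : IsOpen {w : Fin (k + 3) → ℂ | |(w 0).re - m * Lf R w| < Lf R w - ε} :=
    isOpen_lt ((hrc.sub (continuous_const.mul hLc)).abs) (hLc.sub continuous_const)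
  have hev : ∀ᶠ y in nhds x, ∑ j, ar ((fun w j => Bs R G (Tm R m w) (σ j)) y j) = R := by
    have h2 : |(x 0).re - m * Lf R x| < Lf R x - ε := by linarith
    filter_upwards [o1.mem_nhds hx, o2.mem_nhds h2] with y a1 a2
    have a3 : c < Lf R y := a1
    have a4 : |(y 0).re - m * Lf R y| < Lf R y - ε := a2
    have hL' : 0 < Lf R y := by linarith
    show ∑ j, ar (Bs R G (Tm R m y) (σ j)) = R
    rw [Equiv.sum_comp σ (fun j => ar (Bs R G (Tm R m y) j))]
    refine Bs_sphere hG (Tm R m y) (norm_Tm_lt hR hL' m one_ne') ?_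
    rw [Tm_re, Lf_Tm]
    linarith
  have key := omega_phase hF'.differentiableAt hθ' hev v w
  have hE : (Em R G m : (Fin (k + 3) → ℂ) → (Fin (k + 4) → ℂ)) =
      fun y j => ee ((m : ℝ) * (y 0).im) * (fun w j => Bs R G (Tm R m w) (σ j)) y j := rfl
  rw [hE, key, hF'.fderiv]
  have h5 : omega ((ContinuousLinearMap.pi fun j =>
        (ContinuousLinearMap.proj (R := ℝ) (φ := fun _ : Fin (k + 4) => ℂ) (σ j)).comp
        ((fderiv ℝ (Bs R G) (Tm R m x)).comp (fderiv ℝ (Tm R m) x))) v)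
      ((ContinuousLinearMap.pi fun j =>
        (ContinuousLinearMap.proj (R := ℝ) (φ := fun _ : Fin (k + 4) => ℂ) (σ j)).comp
        ((fderiv ℝ (Bs R G) (Tm R m x)).comp (fderiv ℝ (Tm R m) x))) w) =
      omega (fderiv ℝ (Bs R G) (Tm R m x) (fderiv ℝ (Tm R m) x v))
        (fderiv ℝ (Bs R G) (Tm R m x) (fderiv ℝ (Tm R m) x w)) :=
    omega_perm σ _ _
  rw [h5, Bs_sympl hG hr1 h3, Tm_sympl]

include hG in
theorem Gam_sympl (hP : Par R r δ ε c) (x : Fin (k + 3) → ℂ) (hx : c < Lf R x)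
    (v w : Fin (k + 3) → ℂ) :
    omega (fderiv ℝ (Gam R G) x v) (fderiv ℝ (Gam R G) x w) = omega v w := by
  obtain ⟨m, h1, h2⟩ := Gam_eventually hG hP x hx
  rw [h2.fderiv_eq]
  exact Em_sympl hG hP m x hx h1 v w

include hG in
/-- The model map. -/
theorem Gam_spec (hP : Par R r δ ε c) (k : ℕ) : GamSpec (k := k) R c (Gam R G) where
  smooth := Gam_smooth hG hP
  sympl := Gam_sympl hG hP
  sphere := Gam_sphere hG hP
  inj := Gam_inj hG hP
  trace := Gam_trace hG hP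
  single := fun w _ j => Gam_single R G w j

end

end Vale.Agent.P209.H684
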