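import Vale.Agent.P209.H684.Gate
import Vale.Agent.P209.H684.Model4

/-!
# The gate: outer formulas, gluing, and the existence of the model map
-/

namespace Vale.Agent.P209.H684

open Vale.Agent.P209 Vale.Agent.P209.Strong
open scoped ContDiff

/-- the clock of the isotopy -/
noncomputable def sgt (d t : ℝ) : ℝ := Real.smoothTransition (2 - (t / d) ^ 2)

theorem sgt_contDiff (d : ℝ) : ContDiff ℝ ∞ (sgt d) := by
  unfold sgt
  exact Real.smoothTransition.contDiff.comp
    (contDiff_const.sub ((contDiff_id.div_const d).pow 2))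

theorem sgt_one {d t : ℝ} (hd : 0 < d) (h : |t| ≤ d) : sgt d t = 1 := by
  unfold sgt
  refine Real.smoothTransition.one_of_one_le ?_
  have h1 : (t / d) ^ 2 ≤ 1 := by
    rw [div_pow, div_le_one (by positivity)]
    exact sq_le_sq' (by linarith [(abs_le.1 h).1]) (abs_le.1 h).2
  linarith

theorem sgt_zero {d t : ℝ} (hd : 0 < d) (h : 2 * d ≤ |t|) : sgt d t = 0 := by
  unfold sgt
  refine Real.smoothTransition.zero_of_nonpos ?_
  have h1 : 4 ≤ (t / d) ^ 2 := by
    rw [div_pow, le_div_iff₀ (by positivity), ← sq_abs t]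
    nlinarith
  linarith

section Out

variable {s : ℝ → ℝ} {S : ℂ × ℂ → ℂ × ℂ} (hS : Susp s S)

include hS in
theorem gPos_smooth {x : ℂ × ℂ} (hx : 0 < x.1.re) : ContDiffAt ℝ ∞ (gPos S) x := by
  have hS1 : ContDiffAt ℝ ∞ (fun x => (S x).1.im) x :=
    (Complex.imCLM.contDiff.comp hS.smooth.fst).contDiffAt
  have hS2 : ContDiffAt ℝ ∞ (fun x => (S x).2) x := hS.smooth.snd.contDiffAt
  have hre : ContDiffAt ℝ ∞ (fun x : ℂ × ℂ => x.1.re) x :=
    (Complex.reCLM.contDiff.comp contDiff_fst).contDiffAt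
  have ha : ContDiffAt ℝ ∞ (fun x => ar (S x).2) x := ar_contDiff.contDiffAt.comp x hS2
  have hp : 0 < ar (S x).2 + x.1.re := by have := ar_nonneg (S x).2; linarith
  exact (phiA_re_im_contDiffAt (ha.add hre) hS1 hp).prodMk
    ((ee_contDiff.contDiffAt.comp x hS1.neg).mul hS2)

include hS in
theorem gNeg_smooth {x : ℂ × ℂ} (hx : x.1.re < 0) : ContDiffAt ℝ ∞ (gNeg S) x := by
  have hS1 : ContDiffAt ℝ ∞ (fun x => (S x).1.im) x :=
    (Complex.imCLM.contDiff.comp hS.smooth.fst).contDiffAt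
  have hS2 : ContDiffAt ℝ ∞ (fun x => (S x).2) x := hS.smooth.snd.contDiffAt
  have hre : ContDiffAt ℝ ∞ (fun x : ℂ × ℂ => x.1.re) x :=
    (Complex.reCLM.contDiff.comp contDiff_fst).contDiffAt
  have ha : ContDiffAt ℝ ∞ (fun x => ar (S x).2) x := ar_contDiff.contDiffAt.comp x hS2
  have hp : 0 < ar (S x).2 - x.1.re := by have := ar_nonneg (S x).2; linarith
  exact ((ee_contDiff.contDiffAt.comp x hS1).mul hS2).prodMk
    (phiA_re_im_contDiffAt (ha.sub hre) hS1.neg hp)

include hS in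
/-- the derivative data of `S` -/
theorem Susp.data (x : ℂ × ℂ) :
    ∃ (K T : (ℂ × ℂ) →L[ℝ] ℝ) (Z : (ℂ × ℂ) →L[ℝ] ℂ),
      HasFDerivAt (fun x : ℂ × ℂ => x.1.re) K x ∧
      HasFDerivAt (fun x => (S x).1.im) T x ∧ HasFDerivAt (fun x => (S x).2) Z x ∧
      ∀ v w, wd K T v w + om1 (Z v) (Z w) = om2 v w := by
  have hd : HasFDerivAt S (fderiv ℝ S x) x :=
    (hS.smooth.differentiable (by simp) x).hasFDerivAt
  set K : (ℂ × ℂ) →L[ℝ] ℝ := Complex.reCLM.comp (ContinuousLinearMap.fst ℝ ℂ ℂ) with hK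
  have hκ : HasFDerivAt (fun x : ℂ × ℂ => x.1.re) K x := K.hasFDerivAt
  have h1 : HasFDerivAt (fun x => (S x).1)
      ((ContinuousLinearMap.fst ℝ ℂ ℂ).comp (fderiv ℝ S x)) x :=
    (ContinuousLinearMap.fst ℝ ℂ ℂ).hasFDerivAt.comp x hd
  have h2 : HasFDerivAt (fun x => (S x).2)
      ((ContinuousLinearMap.snd ℝ ℂ ℂ).comp (fderiv ℝ S x)) x :=
    (ContinuousLinearMap.snd ℝ ℂ ℂ).hasFDerivAt.comp x hd
  have h3 : HasFDerivAt (fun x => (S x).1.im)
      (Complex.imCLM.comp ((ContinuousLinearMap.fst ℝ ℂ ℂ).comp (fderiv ℝ S x))) x :=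
    Complex.imCLM.hasFDerivAt.comp x h1
  have h4 : HasFDerivAt (fun x => (S x).1.re)
      (Complex.reCLM.comp ((ContinuousLinearMap.fst ℝ ℂ ℂ).comp (fderiv ℝ S x))) x :=
    Complex.reCLM.hasFDerivAt.comp x h1
  have h5 : (fun x => (S x).1.re) = fun x : ℂ × ℂ => x.1.re := by funext y; exact hS.re y
  rw [h5] at h4
  have h6 := hκ.unique h4
  refine ⟨K, _, _, hκ, h3, h2, fun v w => ?_⟩
  rw [← hS.sympl x v w, h6]
  unfold wd om2 om1
  simp only [ContinuousLinearMap.comp_apply, ContinuousLinearMap.coe_fst',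
    ContinuousLinearMap.coe_snd', Complex.reCLM_apply, Complex.imCLM_apply]
  ring

theorem om2_fderiv {f : ℂ × ℂ → ℂ × ℂ} {x : ℂ × ℂ} (hf : DifferentiableAt ℝ f x) (v w : ℂ × ℂ) :
    om2 (fderiv ℝ f x v) (fderiv ℝ f x w) =
      om1 (fderiv ℝ (fun x => (f x).1) x v) (fderiv ℝ (fun x => (f x).1) x w) +
      om1 (fderiv ℝ (fun x => (f x).2) x v) (fderiv ℝ (fun x => (f x).2) x w) := by
  have e1 : fderiv ℝ (fun x => (f x).1) x =
      (ContinuousLinearMap.fst ℝ ℂ ℂ).comp (fderiv ℝ f x) :=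
    ((ContinuousLinearMap.fst ℝ ℂ ℂ).hasFDerivAt.comp x hf.hasFDerivAt).fderiv
  have e2 : fderiv ℝ (fun x => (f x).2) x =
      (ContinuousLinearMap.snd ℝ ℂ ℂ).comp (fderiv ℝ f x) :=
    ((ContinuousLinearMap.snd ℝ ℂ ℂ).hasFDerivAt.comp x hf.hasFDerivAt).fderiv
  rw [e1, e2]
  rfl

include hS in
theorem gPos_sympl {x : ℂ × ℂ} (hx : 0 < x.1.re) (v w : ℂ × ℂ) :
    om2 (fderiv ℝ (gPos S) x v) (fderiv ℝ (gPos S) x w) = om2 v w := by
  obtain ⟨K, T, Z, hK, hT, hZ, h⟩ := hS.data x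
  have hp : 0 < ar (S x).2 + x.1.re := by have := ar_nonneg (S x).2; linarith
  have ha0 := HasFDerivAt.comp (g := ar) (f := fun x => (S x).2) x (ar_hasFDerivAt (S x).2) hZ
  have ha : HasFDerivAt (fun x => ar (S x).2) ((arD (S x).2).comp Z) x := ha0
  have g1 := om1_phiA (a := fun x => ar (S x).2 + x.1.re) (b := fun x => (S x).1.im)
    (ha.add hK) hT hp v w
  have g2 := om1_phase (ψ := fun x => -(S x).1.im) (h := fun x => (S x).2) hT.neg hZ v w
  rw [om2_fderiv ((gPos_smooth hS hx).differentiableAt (by simp))]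
  have e1 : (fun x => (gPos S x).1) = fun x => phiA (((ar (S x).2 + x.1.re : ℝ) : ℂ) +
      (((S x).1.im : ℝ) : ℂ) * Complex.I) := rfl
  have e2 : (fun x => (gPos S x).2) = fun x => ee (-(S x).1.im) * (S x).2 := rfl
  rw [e1, e2, g1, g2, ← h v w]
  unfold wd
  simp only [add_apply, neg_apply]
  ring

include hS in
theorem gNeg_sympl {x : ℂ × ℂ} (hx : x.1.re < 0) (v w : ℂ × ℂ) :
    om2 (fderiv ℝ (gNeg S) x v) (fderiv ℝ (gNeg S) x w) = om2 v w := by
  obtain ⟨K, T, Z, hK, hT, hZ, h⟩ := hS.data x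
  have hp : 0 < ar (S x).2 - x.1.re := by have := ar_nonneg (S x).2; linarith
  have ha0 := HasFDerivAt.comp (g := ar) (f := fun x => (S x).2) x (ar_hasFDerivAt (S x).2) hZ
  have ha : HasFDerivAt (fun x => ar (S x).2) ((arD (S x).2).comp Z) x := ha0
  have g1 := om1_phiA (a := fun x => ar (S x).2 - x.1.re) (b := fun x => -(S x).1.im)
    (ha.sub hK) hT.neg hp v w
  have g2 := om1_phase (ψ := fun x => (S x).1.im) (h := fun x => (S x).2) hT hZ v w
  rw [om2_fderiv ((gNeg_smooth hS hx).differentiableAt (by simp))]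
  have e1 : (fun x => (gNeg S x).2) = fun x => phiA (((ar (S x).2 - x.1.re : ℝ) : ℂ) +
      ((-(S x).1.im : ℝ) : ℂ) * Complex.I) := rfl
  have e2 : (fun x => (gNeg S x).1) = fun x => ee ((S x).1.im) * (S x).2 := rfl
  rw [e1, e2, g1, g2, ← h v w]
  unfold wd
  simp only [sub_apply, neg_apply]
  ring

include hS in
theorem Susp.inj_lift {x y : ℂ × ℂ} (hre : x.1.re = y.1.re) {m : ℤ}
    (him : (S x).1.im - (S y).1.im = m) (h2 : (S x).2 = (S y).2) :
    ∃ l : ℤ, y = (x.1 + (l : ℂ) * Complex.I, x.2) := by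
  have h3 : S (y.1 + ((m : ℝ) : ℂ) * Complex.I, y.2) = S x := by
    rw [hS.im]
    refine Prod.ext (Complex.ext ?_ ?_) h2.symm
    · simp only [Complex.add_re, Complex.re_ofReal_mul, Complex.I_re, mul_zero, add_zero]
      rw [hS.re, hS.re, hre]
    · simp only [Complex.add_im, Complex.im_ofReal_mul, Complex.I_im, mul_one]
      linarith
  have h4 := hS.inj h3
  refine ⟨-m, ?_⟩
  rw [← h4]
  refine Prod.ext ?_ rfl
  push_cast
  ring

end Out

theorem phiA_polar (a b : ℝ) : phiA ((a : ℂ) + (b : ℂ) * Complex.I) =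
    ((Real.sqrt (a / Real.pi) : ℝ) : ℂ) * ee b := by
  rw [phiA_eq, a1_re, a1_im]

theorem phiA_shift (a b t : ℝ) : phiA ((a : ℂ) + ((b + t : ℝ) : ℂ) * Complex.I) =
    ee t * phiA ((a : ℂ) + (b : ℂ) * Complex.I) := by
  rw [phiA_polar, phiA_polar, ee_add]
  ring

/-- The gate. -/
theorem exists_gate (r δ ε : ℝ) (hr : 0 < r) (hδ : 0 < δ) (hε : 0 < ε) :
    ∃ G, GateSpec r δ ε G := by
  have hpi := Real.pi_pos
  set d : ℝ := min δ ε / 4 with hd
  have hmin : 0 < min δ ε := lt_min hδ hε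
  have hd0 : 0 < d := by positivity
  have hdδ : 4 * d ≤ δ := by rw [hd]; linarith [min_le_left δ ε]
  have hdε : 4 * d ≤ ε := by rw [hd]; linarith [min_le_right δ ε]
  set s : ℝ → ℝ := sgt (2 * d) with hs
  have hs0 : ∀ t, 0 ≤ s t := fun t => Real.smoothTransition.nonneg _
  have hs1 : ∀ t, s t ≤ 1 := fun t => Real.smoothTransition.le_one _
  set e1 : ℝ := min 1 (ε / (4 * Real.pi * (2 * r + 1))) with he1
  have he1pos : 0 < e1 := lt_min one_pos (by positivity)
  have he1a : e1 ≤ 1 := min_le_left _ _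
  have he1b : Real.pi * (e1 * (2 * r + 1)) ≤ ε / 4 := by
    have h1 : e1 ≤ ε / (4 * Real.pi * (2 * r + 1)) := min_le_right _ _
    rw [le_div_iff₀ (by positivity)] at h1
    linarith
  obtain ⟨τ, S, hτ, hS, hSn, hS1, hτ0⟩ :=
    exists_susp_off (sgt_contDiff (2 * d)) hs0 hs1 r e1 he1pos
  have hτ0' : ∀ z, ‖z‖ < r → τ z ≠ 0 := fun z hz => hτ0 z hz.le
  obtain ⟨φ, hφ1, hφ2, hφ3⟩ := exists_lift hτ hr hτ0'
  -- areas grow by at most `ε / 4`
  have harea : ∀ z z' : ℂ, ‖z‖ < r → ‖z'‖ ≤ ‖z‖ + e1 → ar z' ≤ ar z + ε / 4 := by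
    intro z z' hz hz'
    unfold ar
    have h1 : ‖z'‖ ^ 2 ≤ (‖z‖ + e1) ^ 2 := by gcongr
    have h2 := norm_nonneg z
    have h3 : (‖z‖ + e1) ^ 2 ≤ ‖z‖ ^ 2 + e1 * (2 * r + 1) := by nlinarith
    have h4 : Real.pi * ‖z'‖ ^ 2 ≤ Real.pi * (‖z‖ ^ 2 + e1 * (2 * r + 1)) := by
      gcongr
      exact h1.trans h3
    linarith
  have hareaS : ∀ x : ℂ × ℂ, ‖x.2‖ < r → ar (S x).2 ≤ ar x.2 + ε / 4 := fun x hx =>
    harea _ _ hx (hSn x)
  have hareaτ : ∀ z : ℂ, ‖z‖ < r → ar (τ z) ≤ ar z + ε / 4 := by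
    intro z hz
    have h1 : s (0 : ℂ).re = 1 := sgt_one (by positivity) (by simp [hd0.le])
    have h2 := hS1 (0, z) h1
    have h3 := hareaS (0, z) hz
    rw [h2] at h3
    exact h3
  -- agreement of the formulas
  have hP : ∀ x : ℂ × ℂ, ‖x.2‖ < r → d < x.1.re → x.1.re ≤ 2 * d →
      gMid d τ φ x = gPos S x := by
    intro x hx h1 h2
    have h3 : S x = (x.1, τ x.2) := hS1 x (sgt_one (by positivity) (by
      rw [abs_le]; constructor <;> linarith))
    have h4 : chi d x.1.re = x.1.re := chi_of_ge hd0 h1.le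
    have h5 : deriv (chi d) x.1.re = 1 := chi_deriv_ge hd0 h1
    unfold gMid gPos
    rw [h3, h4, h5]
    refine Prod.ext ?_ ?_
    · simp only
      rw [show x.1.im + (1 - 1) * φ x.2 = x.1.im by ring]
    · simp only
      rw [show 1 * φ x.2 - x.1.im = φ x.2 + -x.1.im by ring,
        show ar (τ x.2) + x.1.re - x.1.re = ar (τ x.2) by ring, phiA_shift, hφ2 _ hx]
  have hN : ∀ x : ℂ × ℂ, ‖x.2‖ < r → x.1.re < -d → -(2 * d) ≤ x.1.re →
      gMid d τ φ x = gNeg S x := by
    intro x hx h1 h2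
    have h3 : S x = (x.1, τ x.2) := hS1 x (sgt_one (by positivity) (by
      rw [abs_le]; constructor <;> linarith))
    have h4 : chi d x.1.re = 0 := chi_of_le hd0 h1.le
    have h5 : deriv (chi d) x.1.re = 0 := chi_deriv_le hd0 h1
    unfold gMid gNeg
    rw [h3, h4, h5]
    refine Prod.ext ?_ ?_
    · simp only
      rw [show x.1.im + (1 - 0) * φ x.2 = φ x.2 + x.1.im by ring,
        show ar (τ x.2) + 0 = ar (τ x.2) by ring, phiA_shift, hφ2 _ hx]
    · simp only
      rw [show 0 * φ x.2 - x.1.im = -x.1.im by ring,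
        show ar (τ x.2) + 0 - x.1.re = ar (τ x.2) - x.1.re by ring]
  set G : ℂ × ℂ → ℂ × ℂ := fun x => if |x.1.re| < 2 * d then gMid d τ φ x else
    if 0 ≤ x.1.re then gPos S x else gNeg S x with hGdef
  have gM : ∀ x : ℂ × ℂ, |x.1.re| < 2 * d → G x = gMid d τ φ x := by
    intro x h; rw [hGdef]; simp only [h, if_true]
  have gP : ∀ x : ℂ × ℂ, ‖x.2‖ < r → d < x.1.re → G x = gPos S x := by
    intro x hx h
    by_cases h1 : |x.1.re| < 2 * d
    · rw [gM x h1]
      exact hP x hx h ((le_abs_self _).trans h1.le)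
    · have h2 : 0 ≤ x.1.re := by linarith
      rw [hGdef]; simp only [h1, h2, if_true, if_false]
  have gN : ∀ x : ℂ × ℂ, ‖x.2‖ < r → x.1.re < -d → G x = gNeg S x := by
    intro x hx h
    by_cases h1 : |x.1.re| < 2 * d
    · rw [gM x h1]
      exact hN x hx h (by linarith [(abs_lt.1 h1).1])
    · have h2 : ¬ 0 ≤ x.1.re := by push Not; linarith
      rw [hGdef]; simp only [h1, h2, if_false]
  have hcase : ∀ x : ℂ × ℂ, |x.1.re| < 2 * d ∨ d < x.1.re ∨ x.1.re < -d := by
    intro x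
    by_cases h1 : |x.1.re| < 2 * d
    · exact Or.inl h1
    · right
      push Not at h1
      rcases le_abs.1 h1 with h2 | h2
      · left; linarith
      · right; linarith
  have hrec : Continuous (fun x : ℂ × ℂ => x.1.re) := Complex.continuous_re.comp continuous_fst
  have oM : ∀ x : ℂ × ℂ, |x.1.re| < 2 * d → G =ᶠ[nhds x] gMid d τ φ := by
    intro x h
    filter_upwards [(isOpen_lt hrec.abs continuous_const).mem_nhds h] with y hy
    exact gM y hy
  have oR : IsOpen {x : ℂ × ℂ | ‖x.2‖ < r} := isOpen_lt continuous_snd.norm continuous_const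
  have oP : ∀ x : ℂ × ℂ, ‖x.2‖ < r → d < x.1.re → G =ᶠ[nhds x] gPos S := by
    intro x hx h
    filter_upwards [oR.mem_nhds hx, (isOpen_lt continuous_const hrec).mem_nhds h] with y h1 h2
    exact gP y h1 h2
  have oN : ∀ x : ℂ × ℂ, ‖x.2‖ < r → x.1.re < -d → G =ᶠ[nhds x] gNeg S := by
    intro x hx h
    filter_upwards [oR.mem_nhds hx, (isOpen_lt hrec continuous_const).mem_nhds h] with y h1 h2
    exact gN y h1 h2
  -- areas of the two slots
  have arM : ∀ x : ℂ × ℂ, ‖x.2‖ < r → ar (gMid d τ φ x).1 = ar (τ x.2) + chi d x.1.re ∧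
      ar (gMid d τ φ x).2 = ar (τ x.2) + chi d x.1.re - x.1.re := by
    intro x hx
    obtain ⟨p1, p2⟩ := gMid_pos hd0 hτ0' hx
    exact ⟨ar_phiA_re_im p1, ar_phiA_re_im p2⟩
  have arP : ∀ x : ℂ × ℂ, 0 < x.1.re → ar (gPos S x).1 = ar (S x).2 + x.1.re ∧
      ar (gPos S x).2 = ar (S x).2 := by
    intro x hx
    have := ar_nonneg (S x).2
    exact ⟨ar_phiA_re_im (by linarith), ar_mul_of_norm_one (ee_norm _)⟩
  have arN : ∀ x : ℂ × ℂ, x.1.re < 0 → ar (gNeg S x).1 = ar (S x).2 ∧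
      ar (gNeg S x).2 = ar (S x).2 - x.1.re := by
    intro x hx
    have := ar_nonneg (S x).2
    exact ⟨ar_mul_of_norm_one (ee_norm _), ar_phiA_re_im (by linarith)⟩
  have hdiff : ∀ x : ℂ × ℂ, ‖x.2‖ < r → ar (G x).1 - ar (G x).2 = x.1.re := by
    intro x hx
    rcases hcase x with h | h | h
    · rw [gM x h, (arM x hx).1, (arM x hx).2]; ring
    · rw [gP x hx h, (arP x (hd0.trans h)).1, (arP x (hd0.trans h)).2]; ring
    · rw [gN x hx h, (arN x (by linarith)).1, (arN x (by linarith)).2]; ring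
  refine ⟨G, ?_, ?_, hdiff, ?_, ?_, ?_, ?_, ?_⟩
  · intro x hx
    rcases hcase x with h | h | h
    · exact (gMid_smooth hd0 hτ hτ0' hφ1 hx).congr_of_eventuallyEq (oM x h)
    · exact (gPos_smooth hS (hd0.trans h)).congr_of_eventuallyEq (oP x hx h)
    · exact (gNeg_smooth hS (by linarith)).congr_of_eventuallyEq (oN x hx h)
  · intro x hx v w
    rcases hcase x with h | h | h
    · rw [(oM x h).fderiv_eq]; exact gMid_sympl hd0 hτ hτ0' hφ1 hφ3 hx v w
    · rw [(oP x hx h).fderiv_eq]; exact gPos_sympl hS (hd0.trans h) v w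
    · rw [(oN x hx h).fderiv_eq]; exact gNeg_sympl hS (by linarith) v w
  · intro x hx
    rcases hcase x with h | h | h
    · rw [gM x h, (arM x hx).1, (arM x hx).2]
      have h1 := hareaτ x.2 hx
      have h2 := chi_le (t := x.1.re) hd0
      rcases le_total 0 x.1.re with h3 | h3
      · rw [max_eq_left h3] at h2
        rw [abs_of_nonneg h3]
        linarith
      · rw [max_eq_right h3] at h2
        rw [abs_of_nonpos h3]
        linarith
    · rw [gP x hx h, (arP x (hd0.trans h)).1, (arP x (hd0.trans h)).2]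
      have h1 := hareaS x hx
      have h2 := le_abs_self x.1.re
      linarith
    · rw [gN x hx h, (arN x (by linarith)).1, (arN x (by linarith)).2]
      have h1 := hareaS x hx
      have h2 := neg_abs_le x.1.re
      linarith
  · intro x y hx hy hxy
    have hre : x.1.re = y.1.re := by rw [← hdiff x hx, ← hdiff y hy, hxy]
    rcases hcase x with h | h | h
    · have h' : |y.1.re| < 2 * d := by rwa [← hre]
      rw [gM x h, gM y h'] at hxy
      obtain ⟨p1, p2⟩ := gMid_pos hd0 hτ0' hx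
      obtain ⟨q1, q2⟩ := gMid_pos hd0 hτ0' hy
      have k1 := congrArg Prod.fst hxy
      have k2 := congrArg Prod.snd hxy
      simp only [gMid] at k1 k2
      obtain ⟨a1, m1, b1⟩ := phiA_re_im_inj p1 q1 k1
      obtain ⟨a2, m2, b2⟩ := phiA_re_im_inj p2 q2 k2
      rw [hre] at a1 b1 b2
      have a3 : ar (τ x.2) = ar (τ y.2) := by linarith
      have b3 : φ x.2 = φ y.2 + ((m1 + m2 : ℤ) : ℝ) := by push_cast; linarith
      have h5 : τ x.2 = τ y.2 := by
        rw [← hφ2 _ hx, ← hφ2 _ hy, a3, b3, phiA_shift, ee_int, one_mul]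
      have h6 : x.2 = y.2 := hτ.inj h5
      refine ⟨-m1, Prod.ext (Complex.ext ?_ ?_) h6.symm⟩
      · simp [hre]
      · rw [h6] at b1
        simp
        linarith
    · have h' : d < y.1.re := by rwa [← hre]
      rw [gP x hx h, gP y hy h'] at hxy
      have k1 := congrArg Prod.fst hxy
      have k2 := congrArg Prod.snd hxy
      simp only [gPos] at k1 k2
      have n1 := ar_nonneg (S x).2
      have n2 := ar_nonneg (S y).2
      obtain ⟨a1, m1, b1⟩ := phiA_re_im_inj (by linarith) (by linarith) k1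
      have h5 : (S x).2 = (S y).2 := by
        have h6 : -(S x).1.im = -(S y).1.im + ((-m1 : ℤ) : ℝ) := by push_cast; linarith
        rw [h6, ee_add_int] at k2
        exact mul_left_cancel₀ (ee_ne_zero _) k2
      exact hS.inj_lift hre b1 h5
    · have h' : y.1.re < -d := by rwa [← hre]
      rw [gN x hx h, gN y hy h'] at hxy
      have k1 := congrArg Prod.fst hxy
      have k2 := congrArg Prod.snd hxy
      simp only [gNeg] at k1 k2
      have n1 := ar_nonneg (S x).2
      have n2 := ar_nonneg (S y).2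
      obtain ⟨a1, m1, b1⟩ := phiA_re_im_inj (by linarith) (by linarith) k2
      have b2 : (S x).1.im - (S y).1.im = ((-m1 : ℤ) : ℝ) := by push_cast; linarith
      have h5 : (S x).2 = (S y).2 := by
        have h6 : (S x).1.im = (S y).1.im + ((-m1 : ℤ) : ℝ) := by linarith
        rw [h6, ee_add_int] at k1
        exact mul_left_cancel₀ (ee_ne_zero _) k1
      exact hS.inj_lift hre b2 h5
  · intro x hx h
    have h1 : s x.1.re = 0 := sgt_zero (by positivity) (by
      rw [abs_of_pos (by linarith)]; linarith)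
    have h2 : S x = x := hS.off x h1
    rw [gP x hx (by linarith)]
    unfold gPos
    rw [h2]
  · intro x hx h
    have h1 : s x.1.re = 0 := sgt_zero (by positivity) (by
      rw [abs_of_neg (by linarith)]; linarith)
    have h2 : S x = x := hS.off x h1
    rw [gN x hx (by linarith)]
    unfold gNeg
    rw [h2]
  · intro x hx h
    have h1 : |x.1.re| < 2 * d := by rw [h, abs_zero]; linarith
    rw [gM x h1]
    have h2 := (arM x hx).2
    have h3 := (gMid_pos hd0 hτ0' hx).2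
    refine ⟨?_, ?_⟩
    · unfold gMid
      simp only
      rw [h, chi_deriv_zero, ← phiA_shift]
      congr 2
      · push_cast; ring
      · push_cast; ring
    · intro h4
      rw [h4, ar_eq_zero.2 rfl] at h2
      linarith

/-- The model map exists. -/
theorem exists_gam (k : ℕ) (R c : ℝ) (hc : 0 < c) :
    ∃ Gm : (Fin (k + 3) → ℂ) → (Fin (k + 4) → ℂ), GamSpec R c Gm := by
  obtain ⟨G, hG⟩ := exists_gate (|R| + 1) (c / 8) (c / 8) (by positivity) (by positivity)
    (by positivity)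
  exact ⟨Gam R G, Gam_spec hG ⟨le_rfl, by positivity, by positivity, by linarith⟩ k⟩

end Vale.Agent.P209.H684
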