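import Vale.Agent.P209.H684.Calc

/-!
# The 4-cycle model: interface of the part MODEL (M2)

Source `Fin (k + 3) → ℂ`: slot `0` is `p + i θ`, slot `1` is the disc coordinate of the pair
`{0, 2}`, slot `2` the disc coordinate of the pair `{1, 3}`, the slots `≥ 3` are single.
Target `Fin (k + 4) → ℂ`: homogeneous coordinates `Z 0, …, Z 3` and `Z (j + 1)` for `j ≥ 3`.
-/

namespace Vale.Agent.P209.H684

open Vale.Agent.P209 Vale.Agent.P209.Strong
open scoped ContDiff

/-- multiplicity of the slot `b` in the function `L`: `2` for the two pairs, `1` for the singles,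
`0` for the slot `0` -/
def cf {k : ℕ} (b : Fin (k + 3)) : ℤ := if b = 0 then 0 else if b = 1 ∨ b = 2 then 2 else 1

/-- `L w = R - 2 u 1 - 2 u 2 - ∑_{b ≥ 3} u b`, with `u b = π |w b| ^ 2` -/
noncomputable def Lf {k : ℕ} (R : ℝ) (w : Fin (k + 3) → ℂ) : ℝ := R - ∑ b, cf b * ar (w b)

/-- the integral shear `p ↦ p - m L`, `z b ↦ exp (- 2 π i m (cf b) θ) z b`; the deck group of the
model consists of the maps `Fr (4 m)` and of `θ ↦ θ + l` -/
noncomputable def Fr {k : ℕ} (R : ℝ) (m : ℤ) (w : Fin (k + 3) → ℂ) : Fin (k + 3) → ℂ := fun b =>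
  if b = 0 then w 0 - ((m * Lf R w : ℝ) : ℂ) else ee (-(m * cf b * (w 0).im)) * w b

/-- The properties of the model map. -/
structure GamSpec {k : ℕ} (R c : ℝ) (Gam : (Fin (k + 3) → ℂ) → (Fin (k + 4) → ℂ)) : Prop where
  /-- smooth on the domain `c < L` -/
  smooth : ContDiffOn ℝ ∞ Gam {w | c < Lf R w}
  /-- symplectic -/
  sympl : ∀ w, c < Lf R w → ∀ v v',
    omega (fderiv ℝ Gam w v) (fderiv ℝ Gam w v') = omega v v'
  /-- with values in the sphere of capacity `R` -/
  sphere : ∀ w, c < Lf R w → Real.pi * ∑ j, ‖Gam w j‖ ^ 2 = R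
  /-- injective up to phases, deck transformations and `θ ↦ θ + l` -/
  inj : ∀ w w', c < Lf R w → c < Lf R w' → ∀ lam : ℂ, ‖lam‖ = 1 → Gam w = lam • Gam w' →
    ∃ m l : ℤ, w' = Fr R (4 * m) (w + Pi.single 0 ((l : ℂ) * Complex.I))
  /-- the trace of the hyperplane `Z 0 + i Z 2 = 0` -/
  trace : ∀ w, c < Lf R w → Gam w 0 + Complex.I * Gam w 2 = 0 →
    ∃ m : ℤ, (w 0).re = 2 * m * Lf R w ∧
      ((Even m ∧ ee (2 * (w 0).im) = -Complex.I) ∨ (Odd m ∧ ee (2 * (w 0).im) = Complex.I))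
  /-- the single coordinates are not changed -/
  single : ∀ w, c < Lf R w → ∀ j : Fin k, Gam w j.succ.succ.succ.succ = w j.succ.succ.succ

end Vale.Agent.P209.H684
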