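import Vale.Agent.P209.H684.Twist

/-!
# The gate: the symplectic map which exchanges the roles of the two coordinates of a pair
-/

namespace Vale.Agent.P209.H684

open Vale.Agent.P209 Vale.Agent.P209.Strong
open scoped ContDiff

/-- smooth majorant of `max t 0`, equal to it for `|t| ≥ d` -/
noncomputable def chi (d t : ℝ) : ℝ :=
  t * Real.smoothTransition (t / d + 1 / 2) + d * Real.smoothTransition (2 - 4 * (t / d) ^ 2)

theorem chi_contDiff (d : ℝ) : ContDiff ℝ ∞ (chi d) := by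
  unfold chi
  have h1 : ContDiff ℝ ∞ (fun t : ℝ => t / d) := contDiff_id.div_const d
  exact (contDiff_id.mul (Real.smoothTransition.contDiff.comp (h1.add contDiff_const))).add
    (contDiff_const.mul (Real.smoothTransition.contDiff.comp
      (contDiff_const.sub (contDiff_const.mul (h1.pow 2)))))

theorem chi_of_ge {d t : ℝ} (hd : 0 < d) (h : d ≤ t) : chi d t = t := by
  have h1 : 1 ≤ t / d := by rwa [one_le_div hd]
  unfold chi
  rw [Real.smoothTransition.one_of_one_le (by linarith),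
    Real.smoothTransition.zero_of_nonpos (by nlinarith)]
  ring

theorem chi_of_le {d t : ℝ} (hd : 0 < d) (h : t ≤ -d) : chi d t = 0 := by
  have h1 : t / d ≤ -1 := by rw [div_le_iff₀ hd]; linarith
  unfold chi
  rw [Real.smoothTransition.zero_of_nonpos (by linarith),
    Real.smoothTransition.zero_of_nonpos (by nlinarith)]
  ring

theorem chi_nonneg_aux {d t : ℝ} (hd : 0 < d) : 0 ≤ chi d t ∧ t ≤ chi d t := by
  have hst : ∀ x, 0 ≤ Real.smoothTransition x := fun x => Real.smoothTransition.nonneg x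
  have hst1 : ∀ x, Real.smoothTransition x ≤ 1 := fun x => Real.smoothTransition.le_one x
  have htd : t = (t / d) * d := by field_simp
  set x : ℝ := t / d with hx
  unfold chi
  rw [← hx]
  by_cases h1 : 1 / 2 ≤ x
  · rw [Real.smoothTransition.one_of_one_le (by linarith)]
    have h2 := hst (2 - 4 * x ^ 2)
    have h3 : 0 ≤ t := by rw [htd]; positivity
    constructor
    · have := mul_nonneg hd.le h2
      linarith
    · have := mul_nonneg hd.le h2
      linarith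
  · by_cases h2 : x ≤ -(1 / 2)
    · rw [Real.smoothTransition.zero_of_nonpos (by linarith)]
      have h3 := mul_nonneg hd.le (hst (2 - 4 * x ^ 2))
      have h4 : t ≤ 0 := by rw [htd]; nlinarith
      constructor <;> linarith
    · push Not at h1 h2
      rw [Real.smoothTransition.one_of_one_le (x := 2 - 4 * x ^ 2) (by nlinarith)]
      set y := Real.smoothTransition (x + 1 / 2) with hy
      have h3 : 0 ≤ y := hst _
      have h4 : y ≤ 1 := hst1 _
      have h5 : t < d / 2 := by rw [htd]; nlinarith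
      have h6 : -(d / 2) < t := by rw [htd]; nlinarith
      constructor
      · nlinarith
      · nlinarith

theorem chi_le {d t : ℝ} (hd : 0 < d) : chi d t ≤ max t 0 + d := by
  have hst : ∀ x, 0 ≤ Real.smoothTransition x := fun x => Real.smoothTransition.nonneg x
  have hst1 : ∀ x, Real.smoothTransition x ≤ 1 := fun x => Real.smoothTransition.le_one x
  unfold chi
  have h1 : t * Real.smoothTransition (t / d + 1 / 2) ≤ max t 0 := by
    rcases le_total 0 t with h | h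
    · rw [max_eq_left h]
      exact mul_le_of_le_one_right h (hst1 _)
    · rw [max_eq_right h]
      exact mul_nonpos_of_nonpos_of_nonneg h (hst _)
  have h2 : d * Real.smoothTransition (2 - 4 * (t / d) ^ 2) ≤ d :=
    mul_le_of_le_one_right hd.le (hst1 _)
  linarith

theorem chi_deriv_ge {d t : ℝ} (hd : 0 < d) (h : d < t) : deriv (chi d) t = 1 := by
  have h1 : chi d =ᶠ[nhds t] fun t => t := by
    filter_upwards [lt_mem_nhds h] with y hy using chi_of_ge hd hy.le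
  rw [h1.deriv_eq]
  exact deriv_id t

theorem chi_deriv_le {d t : ℝ} (hd : 0 < d) (h : t < -d) : deriv (chi d) t = 0 := by
  have h1 : chi d =ᶠ[nhds t] fun _ => 0 := by
    filter_upwards [gt_mem_nhds h] with y hy using chi_of_le hd hy.le
  rw [h1.deriv_eq]
  exact deriv_const t 0

theorem smoothTransition_half : Real.smoothTransition (1 / 2) = 1 / 2 := by
  unfold Real.smoothTransition
  have h : 0 < expNegInvGlue (1 / 2) := expNegInvGlue.pos_of_pos (by norm_num)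
  have h2 : (1 : ℝ) - 1 / 2 = 1 / 2 := by norm_num
  rw [h2]
  field_simp
  norm_num

theorem chi_deriv_zero {d : ℝ} : deriv (chi d) 0 = 1 / 2 := by
  have hst : ∀ x : ℝ, HasDerivAt Real.smoothTransition (deriv Real.smoothTransition x) x :=
    fun x => ((Real.smoothTransition.contDiff (n := 1)).differentiable (by simp) x).hasDerivAt
  have h1 : HasDerivAt (fun t : ℝ => t / d + 1 / 2) (1 / d) 0 :=
    ((hasDerivAt_id (0 : ℝ)).div_const d).add_const _
  have h2 : HasDerivAt (fun t : ℝ => 2 - 4 * (t / d) ^ 2) 0 0 := by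
    have h3 : HasDerivAt (fun t : ℝ => t / d) (1 / d) 0 := (hasDerivAt_id (0 : ℝ)).div_const d
    have h4 := ((h3.pow 2).const_mul 4).const_sub 2
    have h5 : HasDerivAt (fun t : ℝ => 2 - 4 * (t / d) ^ 2) _ 0 := h4
    refine h5.congr_deriv ?_
    simp
  have h3 := (hst (0 / d + 1 / 2)).comp (0 : ℝ) h1
  have h4 := (hst (2 - 4 * (0 / d) ^ 2)).comp (0 : ℝ) h2
  have h5 : HasDerivAt (fun t : ℝ => t * Real.smoothTransition (t / d + 1 / 2)) _ 0 :=
    (hasDerivAt_id (0 : ℝ)).mul h3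
  have h6 : HasDerivAt (fun t : ℝ => d * Real.smoothTransition (2 - 4 * (t / d) ^ 2)) _ 0 :=
    h4.const_mul d
  have h7 : HasDerivAt (chi d) _ 0 := h5.add h6
  rw [h7.deriv]
  simp
  rw [show (2 : ℝ)⁻¹ = 1 / 2 by norm_num]
  exact smoothTransition_half

/-- the middle formula -/
noncomputable def gMid (d : ℝ) (τ : ℂ → ℂ) (φ : ℂ → ℝ) (x : ℂ × ℂ) : ℂ × ℂ :=
  (phiA (((ar (τ x.2) + chi d x.1.re : ℝ) : ℂ) +
      ((x.1.im + (1 - deriv (chi d) x.1.re) * φ x.2 : ℝ) : ℂ) * Complex.I),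
    phiA (((ar (τ x.2) + chi d x.1.re - x.1.re : ℝ) : ℂ) +
      ((deriv (chi d) x.1.re * φ x.2 - x.1.im : ℝ) : ℂ) * Complex.I))

/-- the right formula -/
noncomputable def gPos (S : ℂ × ℂ → ℂ × ℂ) (x : ℂ × ℂ) : ℂ × ℂ :=
  (phiA (((ar (S x).2 + x.1.re : ℝ) : ℂ) + (((S x).1.im : ℝ) : ℂ) * Complex.I),
    ee (-(S x).1.im) * (S x).2)

/-- the left formula -/
noncomputable def gNeg (S : ℂ × ℂ → ℂ × ℂ) (x : ℂ × ℂ) : ℂ × ℂ :=
  (ee (S x).1.im * (S x).2,
    phiA (((ar (S x).2 - x.1.re : ℝ) : ℂ) + ((-(S x).1.im : ℝ) : ℂ) * Complex.I))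

section Mid

variable {d r : ℝ} (hd : 0 < d) {τ : ℂ → ℂ} (hτ : Sympl1 τ) {φ : ℂ → ℝ}
  (h0 : ∀ z, ‖z‖ < r → τ z ≠ 0)
  (hφ1 : ∀ z, ‖z‖ < r → ContDiffAt ℝ ∞ φ z)
  (hφ2 : ∀ z, ‖z‖ < r → phiA ((ar (τ z) : ℂ) + (φ z : ℂ) * Complex.I) = τ z)
  (hφ3 : ∀ z, ‖z‖ < r → ∀ v w,
    wd (fderiv ℝ (fun z => ar (τ z)) z) (fderiv ℝ φ z) v w = om1 v w)

include hd h0 in
theorem gMid_pos {x : ℂ × ℂ} (hx : ‖x.2‖ < r) :
    0 < ar (τ x.2) + chi d x.1.re ∧ 0 < ar (τ x.2) + chi d x.1.re - x.1.re := by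
  have h1 := ar_pos.2 (h0 _ hx)
  obtain ⟨h2, h3⟩ := chi_nonneg_aux (t := x.1.re) hd
  constructor <;> linarith

include hd hτ h0 hφ1 in
theorem gMid_smooth {x : ℂ × ℂ} (hx : ‖x.2‖ < r) : ContDiffAt ℝ ∞ (gMid d τ φ) x := by
  have hre : ContDiffAt ℝ ∞ (fun x : ℂ × ℂ => x.1.re) x :=
    (Complex.reCLM.contDiff.comp contDiff_fst).contDiffAt
  have him : ContDiffAt ℝ ∞ (fun x : ℂ × ℂ => x.1.im) x :=
    (Complex.imCLM.contDiff.comp contDiff_fst).contDiffAt
  have hc : ContDiffAt ℝ ∞ (fun x : ℂ × ℂ => chi d x.1.re) x :=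
    (chi_contDiff d).contDiffAt.comp x hre
  have hc' : ContDiffAt ℝ ∞ (fun x : ℂ × ℂ => deriv (chi d) x.1.re) x :=
    (contDiff_infty_iff_deriv.1 (chi_contDiff d)).2.contDiffAt.comp x hre
  have hf : ContDiffAt ℝ ∞ (fun x : ℂ × ℂ => φ x.2) x := (hφ1 _ hx).comp x contDiffAt_snd
  have hu : ContDiffAt ℝ ∞ (fun x : ℂ × ℂ => ar (τ x.2)) x :=
    ((ar_contDiff.comp hτ.smooth).comp contDiff_snd).contDiffAt
  obtain ⟨p1, p2⟩ := gMid_pos hd h0 hx
  exact (phiA_re_im_contDiffAt (hu.add hc) (him.add ((contDiffAt_const.sub hc').mul hf)) p1).prodMk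
    (phiA_re_im_contDiffAt ((hu.add hc).sub hre) ((hc'.mul hf).sub him) p2)

include hd hτ h0 hφ1 hφ3 in
theorem gMid_sympl {x : ℂ × ℂ} (hx : ‖x.2‖ < r) (v w : ℂ × ℂ) :
    om2 (fderiv ℝ (gMid d τ φ) x v) (fderiv ℝ (gMid d τ φ) x w) = om2 v w := by
  obtain ⟨p1, p2⟩ := gMid_pos hd h0 hx
  set K : (ℂ × ℂ) →L[ℝ] ℝ := Complex.reCLM.comp (ContinuousLinearMap.fst ℝ ℂ ℂ) with hK
  set Θ : (ℂ × ℂ) →L[ℝ] ℝ := Complex.imCLM.comp (ContinuousLinearMap.fst ℝ ℂ ℂ) with hΘ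
  have hκ : HasFDerivAt (fun x : ℂ × ℂ => x.1.re) K x := K.hasFDerivAt
  have hθ : HasFDerivAt (fun x : ℂ × ℂ => x.1.im) Θ x := Θ.hasFDerivAt
  have hc0 := ((chi_contDiff d).differentiable (by simp) x.1.re).hasDerivAt.comp_hasFDerivAt x hκ
  have hc : HasFDerivAt (fun x : ℂ × ℂ => chi d x.1.re) (deriv (chi d) x.1.re • K) x := hc0
  have hc1 := ((contDiff_infty_iff_deriv.1 (chi_contDiff d)).2.differentiable (by simp)
    x.1.re).hasDerivAt.comp_hasFDerivAt x hκ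
  have hc' : HasFDerivAt (fun x : ℂ × ℂ => deriv (chi d) x.1.re)
      (deriv (deriv (chi d)) x.1.re • K) x := hc1
  have hu0 : HasFDerivAt (fun z => ar (τ z)) (fderiv ℝ (fun z => ar (τ z)) x.2) x.2 :=
    ((ar_contDiff.comp hτ.smooth).contDiffAt.differentiableAt (by simp)).hasFDerivAt
  have hf0 : HasFDerivAt φ (fderiv ℝ φ x.2) x.2 :=
    ((hφ1 _ hx).differentiableAt (by simp)).hasFDerivAt
  have hsnd : HasFDerivAt (fun x : ℂ × ℂ => x.2) (ContinuousLinearMap.snd ℝ ℂ ℂ) x :=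
    (ContinuousLinearMap.snd ℝ ℂ ℂ).hasFDerivAt
  have hu1 := hu0.comp x hsnd
  have hf1 := hf0.comp x hsnd
  set U : (ℂ × ℂ) →L[ℝ] ℝ :=
    (fderiv ℝ (fun z => ar (τ z)) x.2).comp (ContinuousLinearMap.snd ℝ ℂ ℂ) with hU
  set Φ : (ℂ × ℂ) →L[ℝ] ℝ := (fderiv ℝ φ x.2).comp (ContinuousLinearMap.snd ℝ ℂ ℂ) with hΦ
  have hu : HasFDerivAt (fun x : ℂ × ℂ => ar (τ x.2)) U x := hu1
  have hf : HasFDerivAt (fun x : ℂ × ℂ => φ x.2) Φ x := hf1
  have key := hφ3 _ hx v.2 w.2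
  have hmul1 : HasFDerivAt (fun x : ℂ × ℂ => (1 - deriv (chi d) x.1.re) * φ x.2)
      ((1 - deriv (chi d) x.1.re) • Φ + φ x.2 • (-(deriv (deriv (chi d)) x.1.re • K))) x :=
    (hc'.const_sub 1).mul hf
  have hmul2 : HasFDerivAt (fun x : ℂ × ℂ => deriv (chi d) x.1.re * φ x.2)
      (deriv (chi d) x.1.re • Φ + φ x.2 • (deriv (deriv (chi d)) x.1.re • K)) x := hc'.mul hf
  have a1 := hu.add hc
  have b1 := hθ.add hmul1
  have a2 := (hu.add hc).sub hκ
  have b2 := hmul2.sub hθ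
  have g1 := om1_phiA (a := fun x : ℂ × ℂ => ar (τ x.2) + chi d x.1.re)
    (b := fun x : ℂ × ℂ => x.1.im + (1 - deriv (chi d) x.1.re) * φ x.2) a1 b1 p1 v w
  have g2 := om1_phiA (a := fun x : ℂ × ℂ => ar (τ x.2) + chi d x.1.re - x.1.re)
    (b := fun x : ℂ × ℂ => deriv (chi d) x.1.re * φ x.2 - x.1.im) a2 b2 p2 v w
  have hdiff := (gMid_smooth hd hτ h0 hφ1 hx).differentiableAt (by simp)
  have e1 : ∀ v, (fderiv ℝ (gMid d τ φ) x v).1 = fderiv ℝ (fun x => (gMid d τ φ x).1) x v := by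
    intro v
    have := ((ContinuousLinearMap.fst ℝ ℂ ℂ).hasFDerivAt.comp x hdiff.hasFDerivAt).fderiv
    have h2 : fderiv ℝ (fun x => (gMid d τ φ x).1) x =
      (ContinuousLinearMap.fst ℝ ℂ ℂ).comp (fderiv ℝ (gMid d τ φ) x) := this
    rw [h2]; rfl
  have e2 : ∀ v, (fderiv ℝ (gMid d τ φ) x v).2 = fderiv ℝ (fun x => (gMid d τ φ x).2) x v := by
    intro v
    have := ((ContinuousLinearMap.snd ℝ ℂ ℂ).hasFDerivAt.comp x hdiff.hasFDerivAt).fderiv
    have h2 : fderiv ℝ (fun x => (gMid d τ φ x).2) x =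
      (ContinuousLinearMap.snd ℝ ℂ ℂ).comp (fderiv ℝ (gMid d τ φ) x) := this
    rw [h2]; rfl
  unfold om2
  rw [e1, e1, e2, e2]
  have g1' : om1 (fderiv ℝ (fun x => (gMid d τ φ x).1) x v)
      (fderiv ℝ (fun x => (gMid d τ φ x).1) x w) = _ := g1
  have g2' : om1 (fderiv ℝ (fun x => (gMid d τ φ x).2) x v)
      (fderiv ℝ (fun x => (gMid d τ φ x).2) x w) = _ := g2
  rw [g1', g2', ← key]
  simp only [wd, om1, add_apply, sub_apply, neg_apply, smul_apply, smul_eq_mul, hK, hΘ, hU, hΦ,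
    ContinuousLinearMap.comp_apply, ContinuousLinearMap.coe_fst', ContinuousLinearMap.coe_snd',
    Complex.reCLM_apply, Complex.imCLM_apply]
  ring

end Mid

end Vale.Agent.P209.H684
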