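import Vale.Agent.P209.H684.Defs

/-!
# The gate: specification
-/

namespace Vale.Agent.P209.H684

open Vale.Agent.P209 Vale.Agent.P209.Strong
open scoped ContDiff

/-- the symplectic form of `ℂ × ℂ` -/
def om2 (v w : ℂ × ℂ) : ℝ := om1 v.1 w.1 + om1 v.2 w.2

/-- The properties of the gate map on the region `‖z‖ < r`. -/
structure GateSpec (r δ ε : ℝ) (G : ℂ × ℂ → ℂ × ℂ) : Prop where
  smooth : ∀ x : ℂ × ℂ, ‖x.2‖ < r → ContDiffAt ℝ ∞ G x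
  sympl : ∀ x : ℂ × ℂ, ‖x.2‖ < r → ∀ v w,
    om2 (fderiv ℝ G x v) (fderiv ℝ G x w) = om2 v w
  diff : ∀ x : ℂ × ℂ, ‖x.2‖ < r → ar (G x).1 - ar (G x).2 = x.1.re
  sum : ∀ x : ℂ × ℂ, ‖x.2‖ < r → ar (G x).1 + ar (G x).2 ≤ 2 * ar x.2 + |x.1.re| + ε
  inj : ∀ x y : ℂ × ℂ, ‖x.2‖ < r → ‖y.2‖ < r → G x = G y →
    ∃ l : ℤ, y = (x.1 + (l : ℂ) * Complex.I, x.2)
  plus : ∀ x : ℂ × ℂ, ‖x.2‖ < r → δ ≤ x.1.re →
    G x = (phiA (((ar x.2 + x.1.re : ℝ) : ℂ) + ((x.1.im : ℝ) : ℂ) * Complex.I),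
      ee (-x.1.im) * x.2)
  minus : ∀ x : ℂ × ℂ, ‖x.2‖ < r → x.1.re ≤ -δ →
    G x = (ee x.1.im * x.2,
      phiA (((ar x.2 - x.1.re : ℝ) : ℂ) + ((-x.1.im : ℝ) : ℂ) * Complex.I))
  zero : ∀ x : ℂ × ℂ, ‖x.2‖ < r → x.1.re = 0 →
    (G x).1 = ee (2 * x.1.im) * (G x).2 ∧ (G x).2 ≠ 0

section

variable {E : Type*} [NormedAddCommGroup E] [NormedSpace ℝ E]

theorem phiA_re_im_contDiffAt {a b : E → ℝ} {x : E} (ha : ContDiffAt ℝ ∞ a x)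
    (hb : ContDiffAt ℝ ∞ b x) (hpos : 0 < a x) :
    ContDiffAt ℝ ∞ (fun y => phiA (((a y : ℝ) : ℂ) + ((b y : ℝ) : ℂ) * Complex.I)) x := by
  have h1 : ContDiffAt ℝ ∞ (fun y => ((a y : ℝ) : ℂ) + ((b y : ℝ) : ℂ) * Complex.I) x :=
    (Complex.ofRealCLM.contDiff.contDiffAt.comp x ha).add
      ((Complex.ofRealCLM.contDiff.contDiffAt.comp x hb).mul contDiffAt_const)
  have h2 : ContDiffAt ℝ ∞ phiA (((a x : ℝ) : ℂ) + ((b x : ℝ) : ℂ) * Complex.I) :=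
    phiA_contDiffAt (by rw [a1_re]; exact hpos)
  exact h2.comp x h1

theorem phiA_re_im_inj {a b a' b' : ℝ} (ha : 0 < a) (ha' : 0 < a')
    (h : phiA ((a : ℂ) + (b : ℂ) * Complex.I) = phiA ((a' : ℂ) + (b' : ℂ) * Complex.I)) :
    a = a' ∧ ∃ m : ℤ, b - b' = m := by
  have h1 := phiA_inj (w := (a : ℂ) + (b : ℂ) * Complex.I) (w' := (a' : ℂ) + (b' : ℂ) * Complex.I)
    (by rw [a1_re]; exact ha) (by rw [a1_re]; exact ha') h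
  rw [a1_re, a1_re, a1_im, a1_im] at h1
  exact h1

theorem ar_phiA_re_im {a b : ℝ} (ha : 0 < a) : ar (phiA ((a : ℂ) + (b : ℂ) * Complex.I)) = a := by
  rw [ar_phiA (by rw [a1_re]; exact ha), a1_re]

theorem wd_add_left (a b c : E →L[ℝ] ℝ) (v w : E) : wd (a + b) c v w = wd a c v w + wd b c v w := by
  unfold wd; simp; ring

end

end Vale.Agent.P209.H684
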