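import Vale.Agent.P209.H684.GateDefs

/-!
# The model map: algebra of the deck transformations and of the base chart
-/

namespace Vale.Agent.P209.H684

open Vale.Agent.P209 Vale.Agent.P209.Strong
open scoped ContDiff

variable {k : ℕ}

/-! ### slots -/

theorem one_ne' : (1 : Fin (k + 3)) ≠ 0 := Fin.succ_ne_zero (0 : Fin (k + 2))

theorem two_ne' : (2 : Fin (k + 3)) ≠ 0 := Fin.succ_ne_zero (1 : Fin (k + 2))

theorem cf_zero : cf (0 : Fin (k + 3)) = 0 := by simp [cf]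

theorem cf_one : cf (1 : Fin (k + 3)) = 2 := by
  simp [cf, one_ne']

theorem cf_two : cf (2 : Fin (k + 3)) = 2 := by
  simp [cf, two_ne']

theorem cf_succ (j : Fin k) : cf (j.succ.succ.succ) = 1 := by
  have h0 : j.succ.succ.succ ≠ 0 := Fin.succ_ne_zero _
  have h1 : j.succ.succ.succ ≠ (1 : Fin (k + 3)) := by
    intro h
    exact Fin.succ_ne_zero _ (Fin.succ_injective _ (h.trans (show (1 : Fin (k + 3)) = Fin.succ 0 from rfl)))
  have h2 : j.succ.succ.succ ≠ (2 : Fin (k + 3)) := by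
    intro h
    have h3 := Fin.succ_injective _ (h.trans (show (2 : Fin (k + 3)) = Fin.succ 1 from rfl))
    exact Fin.succ_ne_zero _ (Fin.succ_injective _ (h3.trans (show (1 : Fin (k + 2)) = Fin.succ 0 from rfl)))
  simp [cf, h0, h1, h2]

/-- the sum over the single slots -/
noncomputable def sg (w : Fin (k + 3) → ℂ) : ℝ := ∑ j : Fin k, ar (w j.succ.succ.succ)

theorem sg_nonneg (w : Fin (k + 3) → ℂ) : 0 ≤ sg w := Finset.sum_nonneg fun _ _ => ar_nonneg _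

theorem Lf_eq (R : ℝ) (w : Fin (k + 3) → ℂ) :
    Lf R w = R - 2 * ar (w 1) - 2 * ar (w 2) - sg w := by
  unfold Lf sg
  rw [Fin.sum_univ_succ, Fin.sum_univ_succ, Fin.sum_univ_succ]
  have h1 : (Fin.succ 0 : Fin (k + 3)) = 1 := rfl
  have h2 : (Fin.succ (Fin.succ 0) : Fin (k + 3)) = 2 := rfl
  rw [h1, h2, cf_zero, cf_one, cf_two]
  simp only [cf_succ]
  push_cast
  simp only [one_mul]
  ring

/-- all slots of the source -/
theorem forall_slots {p : Fin (k + 3) → Prop} (h0 : p 0) (h1 : p 1) (h2 : p 2)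
    (h3 : ∀ j : Fin k, p j.succ.succ.succ) : ∀ b, p b :=
  Fin.cases h0 (Fin.cases h1 (Fin.cases h2 h3))

/-- all slots of the target -/
theorem forall_slots' {p : Fin (k + 4) → Prop} (h0 : p 0) (h1 : p 1) (h2 : p 2) (h3 : p 3)
    (h4 : ∀ j : Fin k, p j.succ.succ.succ.succ) : ∀ b, p b :=
  Fin.cases h0 (Fin.cases h1 (Fin.cases h2 (Fin.cases h3 h4)))

/-! ### the quarter deck transformations -/

/-- the exchange of the two pairs for odd `m` -/
def swm (m : ℤ) : Equiv.Perm (Fin (k + 3)) := if Even m then 1 else Equiv.swap 1 2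

theorem swap_zero' : Equiv.swap (1 : Fin (k + 3)) 2 0 = 0 :=
  Equiv.swap_apply_of_ne_of_ne one_ne'.symm two_ne'.symm

theorem swap_succ' (j : Fin k) :
    Equiv.swap (1 : Fin (k + 3)) 2 j.succ.succ.succ = j.succ.succ.succ := by
  have h1 : j.succ.succ.succ ≠ (1 : Fin (k + 3)) := by
    intro h
    exact Fin.succ_ne_zero _ (Fin.succ_injective _ (h.trans (show (1 : Fin (k + 3)) = Fin.succ 0 from rfl)))
  have h2 : j.succ.succ.succ ≠ (2 : Fin (k + 3)) := by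
    intro h
    have h3 := Fin.succ_injective _ (h.trans (show (2 : Fin (k + 3)) = Fin.succ 1 from rfl))
    exact Fin.succ_ne_zero _ (Fin.succ_injective _ (h3.trans (show (1 : Fin (k + 2)) = Fin.succ 0 from rfl)))
  exact Equiv.swap_apply_of_ne_of_ne h1 h2

theorem swm_zero' (m : ℤ) : swm m (0 : Fin (k + 3)) = 0 := by
  unfold swm
  split_ifs
  · rfl
  · exact swap_zero'

theorem swm_succ' (m : ℤ) (j : Fin k) : swm m j.succ.succ.succ = j.succ.succ.succ := by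
  unfold swm
  split_ifs
  · rfl
  · exact swap_succ' j

theorem swm_add (m m' : ℤ) (b : Fin (k + 3)) : swm (m + m') b = swm m (swm m' b) := by
  unfold swm
  by_cases h : Even m <;> by_cases h' : Even m' <;> simp [h, h', Int.even_add]

theorem cf_swm (m : ℤ) (b : Fin (k + 3)) : cf (swm m b) = cf b := by
  unfold swm
  split_ifs
  · rfl
  · revert b
    refine forall_slots ?_ ?_ ?_ ?_
    · rw [swap_zero']
    · rw [Equiv.swap_apply_left, cf_one, cf_two]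
    · rw [Equiv.swap_apply_right, cf_one, cf_two]
    · intro j; rw [swap_succ']

/-- The `m`-th power of the quarter deck transformation
`(p, θ, z₁, z₂, z_b) ↦ (p - L, θ, e(-2θ) z₂, e(-2θ) z₁, e(-θ) z_b)`. -/
noncomputable def Tm (R : ℝ) (m : ℤ) (w : Fin (k + 3) → ℂ) : Fin (k + 3) → ℂ :=
  fun b => Fr R m w (swm m b)

theorem Fr_zero (R : ℝ) (m : ℤ) (w : Fin (k + 3) → ℂ) :
    Fr R m w 0 = w 0 - ((m * Lf R w : ℝ) : ℂ) := by simp [Fr]

theorem Fr_ne (R : ℝ) (m : ℤ) (w : Fin (k + 3) → ℂ) {b : Fin (k + 3)} (hb : b ≠ 0) :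
    Fr R m w b = ee (-(m * cf b * (w 0).im)) * w b := by simp [Fr, hb]

theorem swm_ne_zero {m : ℤ} {b : Fin (k + 3)} (hb : b ≠ 0) : swm m b ≠ 0 := by
  intro h
  rw [← swm_zero' m] at h
  exact hb ((swm m).injective h)

theorem Tm_zero (R : ℝ) (m : ℤ) (w : Fin (k + 3) → ℂ) :
    Tm R m w 0 = w 0 - ((m * Lf R w : ℝ) : ℂ) := by
  unfold Tm; rw [swm_zero', Fr_zero]

theorem Tm_ne (R : ℝ) (m : ℤ) (w : Fin (k + 3) → ℂ) {b : Fin (k + 3)} (hb : b ≠ 0) :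
    Tm R m w b = ee (-(m * cf b * (w 0).im)) * w (swm m b) := by
  unfold Tm
  rw [Fr_ne R m w (swm_ne_zero hb), cf_swm]

theorem Tm_re (R : ℝ) (m : ℤ) (w : Fin (k + 3) → ℂ) :
    (Tm R m w 0).re = (w 0).re - m * Lf R w := by
  rw [Tm_zero, Complex.sub_re, Complex.ofReal_re]

theorem Tm_im (R : ℝ) (m : ℤ) (w : Fin (k + 3) → ℂ) : (Tm R m w 0).im = (w 0).im := by
  rw [Tm_zero, Complex.sub_im, Complex.ofReal_im, sub_zero]

theorem ar_Tm (R : ℝ) (m : ℤ) (w : Fin (k + 3) → ℂ) {b : Fin (k + 3)} (hb : b ≠ 0) :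
    ar (Tm R m w b) = ar (w (swm m b)) := by
  rw [Tm_ne R m w hb, ar_mul_of_norm_one (ee_norm _)]

theorem Lf_Tm (R : ℝ) (m : ℤ) (w : Fin (k + 3) → ℂ) : Lf R (Tm R m w) = Lf R w := by
  unfold Lf
  congr 1
  rw [← Equiv.sum_comp (swm m) (fun b => (cf b : ℝ) * ar (w b))]
  refine Finset.sum_congr rfl fun b _ => ?_
  rw [cf_swm]
  by_cases hb : b = 0
  · subst hb
    rw [cf_zero]; simp
  · rw [ar_Tm R m w hb]

theorem Tm_add (R : ℝ) (m m' : ℤ) (w : Fin (k + 3) → ℂ) :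
    Tm R (m + m') w = Tm R m (Tm R m' w) := by
  funext b
  by_cases hb : b = 0
  · subst hb
    rw [Tm_zero, Tm_zero, Tm_zero, Lf_Tm]
    push_cast
    ring
  · rw [Tm_ne _ _ _ hb, Tm_ne _ _ _ hb, Tm_ne _ _ _ (swm_ne_zero hb), Tm_im, cf_swm,
      ← mul_assoc, ← ee_add]
    congr 2
    · push_cast; ring
    · rw [add_comm m m', swm_add]

theorem Tm_zero' (R : ℝ) (w : Fin (k + 3) → ℂ) : Tm R 0 w = w := by
  funext b
  by_cases hb : b = 0
  · subst hb; rw [Tm_zero]; simp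
  · rw [Tm_ne _ _ _ hb]
    have : swm 0 b = b := by simp [swm]
    rw [this]
    simp [ee_zero]

theorem Tm_neg (R : ℝ) (m : ℤ) (w : Fin (k + 3) → ℂ) : Tm R (-m) (Tm R m w) = w := by
  rw [← Tm_add, neg_add_cancel, Tm_zero']

/-- the translation `θ ↦ θ + l` -/
noncomputable def tr (l : ℤ) (w : Fin (k + 3) → ℂ) : Fin (k + 3) → ℂ :=
  w + Pi.single 0 ((l : ℂ) * Complex.I)

theorem tr_zero (l : ℤ) (w : Fin (k + 3) → ℂ) : tr l w 0 = w 0 + (l : ℂ) * Complex.I := by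
  simp [tr]

theorem tr_ne (l : ℤ) (w : Fin (k + 3) → ℂ) {b : Fin (k + 3)} (hb : b ≠ 0) : tr l w b = w b := by
  simp [tr, hb]

theorem tr_im (l : ℤ) (w : Fin (k + 3) → ℂ) : (tr l w 0).im = (w 0).im + l := by
  rw [tr_zero]; simp

theorem tr_re (l : ℤ) (w : Fin (k + 3) → ℂ) : (tr l w 0).re = (w 0).re := by
  rw [tr_zero]; simp

theorem Lf_tr (R : ℝ) (l : ℤ) (w : Fin (k + 3) → ℂ) : Lf R (tr l w) = Lf R w := by
  unfold Lf
  congr 1
  refine Finset.sum_congr rfl fun b _ => ?_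
  by_cases hb : b = 0
  · subst hb; rw [cf_zero]; simp
  · rw [tr_ne l w hb]

theorem Tm_tr (R : ℝ) (m l : ℤ) (w : Fin (k + 3) → ℂ) : Tm R m (tr l w) = tr l (Tm R m w) := by
  funext b
  by_cases hb : b = 0
  · subst hb
    rw [Tm_zero, tr_zero, tr_zero, Tm_zero, Lf_tr]
    ring
  · rw [Tm_ne _ _ _ hb, tr_ne _ _ hb, tr_ne _ _ (swm_ne_zero hb), Tm_ne _ _ _ hb, tr_im]
    congr 1
    have : (-(m * cf b * ((w 0).im + l)) : ℝ) =
        -(m * cf b * (w 0).im) + ((-(m * cf b * l) : ℤ) : ℝ) := by push_cast; ring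
    rw [this, ee_add_int]

theorem tr_tr (l l' : ℤ) (w : Fin (k + 3) → ℂ) : tr l (tr l' w) = tr (l + l') w := by
  funext b
  by_cases hb : b = 0
  · subst hb; simp only [tr_zero]; push_cast; ring
  · simp only [tr_ne _ _ hb]

theorem tr_zero' (w : Fin (k + 3) → ℂ) : tr 0 w = w := by simp [tr]

theorem Tm_four (R : ℝ) (q : ℤ) (w : Fin (k + 3) → ℂ) : Tm R (4 * q) w = Fr R (4 * q) w := by
  funext b
  unfold Tm swm
  have : Even (4 * q) := by
    rw [Int.even_mul]; left; decide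
  rw [if_pos this]
  rfl

/-! ### the cyclic permutation of the first four homogeneous coordinates -/

/-- `0 → 3 → 2 → 1 → 0` -/
def cyc : Equiv.Perm (Fin (k + 4)) where
  toFun := Fin.cases 3 (Fin.cases 0 (Fin.cases 1 (Fin.cases 2 fun j => j.succ.succ.succ.succ)))
  invFun := Fin.cases 1 (Fin.cases 2 (Fin.cases 3 (Fin.cases 0 fun j => j.succ.succ.succ.succ)))
  left_inv := forall_slots' rfl rfl rfl rfl fun _ => rfl
  right_inv := forall_slots' rfl rfl rfl rfl fun _ => rfl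

theorem cyc_0 : cyc (0 : Fin (k + 4)) = 3 := rfl
theorem cyc_1 : cyc (1 : Fin (k + 4)) = 0 := rfl
theorem cyc_2 : cyc (2 : Fin (k + 4)) = 1 := rfl
theorem cyc_3 : cyc (3 : Fin (k + 4)) = 2 := rfl
theorem cyc_4 (j : Fin k) : cyc j.succ.succ.succ.succ = j.succ.succ.succ.succ := rfl

theorem cyc_pow_four : (cyc : Equiv.Perm (Fin (k + 4))) ^ (4 : ℤ) = 1 := by
  ext1 j
  revert j
  exact forall_slots' rfl rfl rfl rfl fun _ => rfl

theorem cyc_zpow_four (q : ℤ) : (cyc : Equiv.Perm (Fin (k + 4))) ^ (4 * q) = 1 := by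
  rw [zpow_mul, cyc_pow_four, one_zpow]

theorem cyc_zpow_single (m : ℤ) (j : Fin k) :
    ((cyc : Equiv.Perm (Fin (k + 4))) ^ m) j.succ.succ.succ.succ = j.succ.succ.succ.succ := by
  obtain ⟨q, r, h, hr⟩ : ∃ q r : ℤ, m = 4 * q + r ∧ (r = 0 ∨ r = 1 ∨ r = 2 ∨ r = 3) :=
    ⟨m / 4, m % 4, by omega, by omega⟩
  rw [h, zpow_add, cyc_zpow_four, one_mul]
  rcases hr with rfl | rfl | rfl | rfl <;> rfl

/-! ### the base chart -/

/-- the area of the last homogeneous coordinate of the four -/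
noncomputable def s3 (R : ℝ) (G : ℂ × ℂ → ℂ × ℂ) (y : Fin (k + 3) → ℂ) : ℝ :=
  R - (ar (G (y 0, y 1)).1 + ar (G (y 0, y 1)).2) - ar (y 2) - sg y

/-- the base chart `|p| < L - ε` -/
noncomputable def Bs (R : ℝ) (G : ℂ × ℂ → ℂ × ℂ) (y : Fin (k + 3) → ℂ) : Fin (k + 4) → ℂ :=
  Fin.cons (G (y 0, y 1)).1 (Fin.cons (y 2) (Fin.cons (G (y 0, y 1)).2
    (Fin.cons ((Real.sqrt (s3 R G y / Real.pi) : ℝ) : ℂ) fun j : Fin k => y j.succ.succ.succ)))

theorem Bs_0 (R : ℝ) (G : ℂ × ℂ → ℂ × ℂ) (y : Fin (k + 3) → ℂ) :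
    Bs R G y 0 = (G (y 0, y 1)).1 := rfl
theorem Bs_1 (R : ℝ) (G : ℂ × ℂ → ℂ × ℂ) (y : Fin (k + 3) → ℂ) : Bs R G y 1 = y 2 := rfl
theorem Bs_2 (R : ℝ) (G : ℂ × ℂ → ℂ × ℂ) (y : Fin (k + 3) → ℂ) :
    Bs R G y 2 = (G (y 0, y 1)).2 := rfl
theorem Bs_3 (R : ℝ) (G : ℂ × ℂ → ℂ × ℂ) (y : Fin (k + 3) → ℂ) :
    Bs R G y 3 = ((Real.sqrt (s3 R G y / Real.pi) : ℝ) : ℂ) := rfl
theorem Bs_4 (R : ℝ) (G : ℂ × ℂ → ℂ × ℂ) (y : Fin (k + 3) → ℂ) (j : Fin k) :
    Bs R G y j.succ.succ.succ.succ = y j.succ.succ.succ := rfl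

/-- The model map. -/
noncomputable def Gam (R : ℝ) (G : ℂ × ℂ → ℂ × ℂ) (w : Fin (k + 3) → ℂ) : Fin (k + 4) → ℂ :=
  fun j => ee (round ((w 0).re / Lf R w) * (w 0).im) *
    Bs R G (Tm R (round ((w 0).re / Lf R w)) w)
      (((cyc : Equiv.Perm (Fin (k + 4))) ^ (round ((w 0).re / Lf R w))) j)

section

variable {R r δ ε : ℝ} {G : ℂ × ℂ → ℂ × ℂ} (hG : GateSpec r δ ε G)

include hG in
/-- `x 3 - x 1 ≥ L - |κ| - ε` -/
theorem s3_ge (y : Fin (k + 3) → ℂ) (hr : ‖y 1‖ < r) :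
    Lf R y - |(y 0).re| - ε ≤ s3 R G y - ar (y 2) := by
  have h := hG.sum (y 0, y 1) hr
  simp only at h
  rw [Lf_eq]
  unfold s3
  linarith only [h]

theorem sqrt_real_ar {a : ℝ} (ha : 0 ≤ a) : ar ((Real.sqrt (a / Real.pi) : ℝ) : ℂ) = a := by
  unfold ar
  have hpi := Real.pi_pos
  rw [Complex.norm_real, Real.norm_of_nonneg (Real.sqrt_nonneg _), Real.sq_sqrt (by positivity)]
  field_simp

include hG in
theorem Bs_sphere (y : Fin (k + 3) → ℂ) (hr : ‖y 1‖ < r) (hy : |(y 0).re| + ε ≤ Lf R y) :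
    ∑ j, ar (Bs R G y j) = R := by
  have h1 := s3_ge (R := R) hG y hr
  have h2 : 0 ≤ s3 R G y := by
    have := ar_nonneg (y 2)
    linarith
  rw [Fin.sum_univ_succ, Fin.sum_univ_succ, Fin.sum_univ_succ, Fin.sum_univ_succ]
  have e1 : (Fin.succ 0 : Fin (k + 4)) = 1 := rfl
  have e2 : (Fin.succ (Fin.succ 0) : Fin (k + 4)) = 2 := rfl
  have e3 : (Fin.succ (Fin.succ (Fin.succ 0)) : Fin (k + 4)) = 3 := rfl
  rw [e1, e2, e3]
  simp only [Bs_0, Bs_1, Bs_2, Bs_3, Bs_4]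
  rw [sqrt_real_ar h2]
  unfold s3 sg
  ring

include hG in
/-- the overlap of two neighbouring charts -/
theorem Bs_overlap (y : Fin (k + 3) → ℂ) (hr1 : ‖y 1‖ < r) (hr2 : ‖y 2‖ < r)
    (h1 : δ ≤ (y 0).re) (h2 : (y 0).re ≤ Lf R y - δ) (hδ : 0 < δ) :
    Bs R G y = fun j => ee (y 0).im * Bs R G (Tm R 1 y) (cyc j) := by
  have hpi := Real.pi_pos
  have g1 := hG.plus (y 0, y 1) hr1 h1
  simp only at g1
  have t0 : (Tm R 1 y) 0 = y 0 - ((Lf R y : ℝ) : ℂ) := by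
    rw [Tm_zero]; push_cast; ring
  have sw1 : (swm 1 : Equiv.Perm (Fin (k + 3))) = Equiv.swap 1 2 := by
    unfold swm; rw [if_neg (by decide)]
  have t1 : (Tm R 1 y) 1 = ee (-(2 * (y 0).im)) * y 2 := by
    rw [Tm_ne R 1 y one_ne', cf_one, sw1, Equiv.swap_apply_left]
    push_cast
    rw [one_mul]
  have t2 : (Tm R 1 y) 2 = ee (-(2 * (y 0).im)) * y 1 := by
    rw [Tm_ne R 1 y two_ne', cf_two, sw1, Equiv.swap_apply_right]
    push_cast
    rw [one_mul]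
  have t3 : ∀ j : Fin k, (Tm R 1 y) j.succ.succ.succ = ee (-(y 0).im) * y j.succ.succ.succ := by
    intro j
    rw [Tm_ne R 1 y (Fin.succ_ne_zero _), cf_succ, sw1, swap_succ']
    push_cast
    rw [one_mul, one_mul]
  have tre : ((Tm R 1 y) 0).re = (y 0).re - Lf R y := by rw [Tm_re]; push_cast; ring
  have tim : ((Tm R 1 y) 0).im = (y 0).im := Tm_im R 1 y
  have g2 := hG.minus ((Tm R 1 y) 0, (Tm R 1 y) 1) (by
      rw [t1, norm_mul, ee_norm, one_mul]; exact hr2)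
    (by rw [tre]; linarith)
  simp only at g2
  rw [tre, tim] at g2
  have a1 : ar ((Tm R 1 y) 1) = ar (y 2) := by rw [t1, ar_mul_of_norm_one (ee_norm _)]
  have a2 : ar ((Tm R 1 y) 2) = ar (y 1) := by rw [t2, ar_mul_of_norm_one (ee_norm _)]
  have asg : sg (Tm R 1 y) = sg y := by
    unfold sg
    refine Finset.sum_congr rfl fun j _ => ?_
    rw [t3, ar_mul_of_norm_one (ee_norm _)]
  have n1 := ar_nonneg (y 1)
  have n2 := ar_nonneg (y 2)
  have c1 : ar (phiA (((ar (y 1) + (y 0).re : ℝ) : ℂ) + (((y 0).im : ℝ) : ℂ) * Complex.I)) =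
      ar (y 1) + (y 0).re := ar_phiA_re_im (by linarith)
  have c2 : ar (phiA (((ar ((Tm R 1 y) 1) - ((y 0).re - Lf R y) : ℝ) : ℂ) +
      ((-(y 0).im : ℝ) : ℂ) * Complex.I)) = ar ((Tm R 1 y) 1) - ((y 0).re - Lf R y) :=
    ar_phiA_re_im (by rw [a1]; linarith)
  have b1 : s3 R G y = Lf R y + ar (y 2) - (y 0).re := by
    unfold s3
    rw [g1, Lf_eq]
    simp only
    rw [c1, ar_mul_of_norm_one (ee_norm _)]
    ring
  have b2 : s3 R G (Tm R 1 y) = ar (y 1) + (y 0).re := by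
    unfold s3
    rw [g2, a2, asg]
    simp only
    rw [c2, ar_mul_of_norm_one (ee_norm _), a1, Lf_eq]
    ring
  have hph : ∀ a b : ℝ, phiA ((a : ℂ) + (b : ℂ) * Complex.I) =
      ((Real.sqrt (a / Real.pi) : ℝ) : ℂ) * ee b := by
    intro a b
    rw [phiA_eq, a1_re, a1_im]
  funext j
  revert j
  refine forall_slots' ?_ ?_ ?_ ?_ ?_
  · rw [cyc_0, Bs_0, Bs_3, g1, b2]
    simp only
    rw [hph, mul_comm]
  · rw [cyc_1, Bs_1, Bs_0, g2, t1]
    simp only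
    rw [← mul_assoc, ← mul_assoc, ← ee_add, ← ee_add]
    have : (y 0).im + (y 0).im + -(2 * (y 0).im) = 0 := by ring
    rw [this, ee_zero, one_mul]
  · rw [cyc_2, Bs_2, Bs_1, g1, t2]
    simp only
    rw [← mul_assoc, ← ee_add]
    congr 2
    ring
  · rw [cyc_3, Bs_3, Bs_2, g2, b1, a1]
    simp only
    rw [hph, mul_comm, mul_assoc, ← ee_add]
    have : -(y 0).im + (y 0).im = 0 := by ring
    rw [this, ee_zero, mul_one]
    congr 3
    ring
  · intro j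
    rw [cyc_4, Bs_4, Bs_4, t3, ← mul_assoc, ee_mul_neg, one_mul]

end

end Vale.Agent.P209.H684
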