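import Vale.Agent.P209.H684.Model

/-!
# The model map: injectivity and the trace of the hyperplane
-/

namespace Vale.Agent.P209.H684

open Vale.Agent.P209 Vale.Agent.P209.Strong
open scoped ContDiff

variable {k : ℕ} {R r δ ε : ℝ} {G : ℂ × ℂ → ℂ × ℂ}

theorem ar_lt_of_Lf {w : Fin (k + 3) → ℂ} (hw : 0 < Lf R w) {b : Fin (k + 3)} (hb : b ≠ 0) :
    ar (w b) < R := by
  unfold Lf at hw
  have hc : (1 : ℝ) ≤ cf b := by
    unfold cf
    rw [if_neg hb]
    split_ifs <;> norm_num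
  have hc0 : ∀ b : Fin (k + 3), (0 : ℝ) ≤ cf b := by
    intro b
    unfold cf
    split_ifs <;> norm_num
  have h1 : (cf b : ℝ) * ar (w b) ≤ ∑ b, (cf b : ℝ) * ar (w b) :=
    Finset.single_le_sum (f := fun b => (cf b : ℝ) * ar (w b))
      (fun b _ => mul_nonneg (hc0 b) (ar_nonneg _)) (Finset.mem_univ b)
  have h2 := ar_nonneg (w b)
  nlinarith

theorem norm_lt_of_ar {z : ℂ} (h : ar z < R) : ‖z‖ < |R| + 1 := by
  by_contra hc
  push Not at hc
  unfold ar at h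
  have h1 : R ≤ |R| := le_abs_self R
  have h2 := abs_nonneg R
  have h3 : (|R| + 1) ^ 2 ≤ ‖z‖ ^ 2 := by gcongr
  have h4 := Real.two_le_pi
  have h5 : 0 ≤ ‖z‖ ^ 2 := by positivity
  nlinarith

theorem norm_Tm_lt (hR : |R| + 1 ≤ r) {w : Fin (k + 3) → ℂ} (hw : 0 < Lf R w) (m : ℤ)
    {b : Fin (k + 3)} (hb : b ≠ 0) : ‖Tm R m w b‖ < r :=
  (norm_lt_of_ar (ar_lt_of_Lf (by rw [Lf_Tm]; exact hw) hb)).trans_le hR

section

variable (hG : GateSpec r δ ε G)

include hG in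
/-- two points with positive last coordinate and proportional images are equal modulo `θ ↦ θ + l` -/
theorem Bs_core {lam : ℂ} (hlam : ‖lam‖ = 1) {y y' : Fin (k + 3) → ℂ} (hr : ‖y 1‖ < r)
    (hr' : ‖y' 1‖ < r) (h3 : 0 < s3 R G y) (h3' : 0 < s3 R G y')
    (h : ∀ j, Bs R G y j = lam * Bs R G y' j) : ∃ l : ℤ, y' = tr l y := by
  have hpi := Real.pi_pos
  have e3 := h 3
  rw [Bs_3, Bs_3] at e3
  have hn : Real.sqrt (s3 R G y / Real.pi) = Real.sqrt (s3 R G y' / Real.pi) := by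
    have := congrArg (fun z : ℂ => ‖z‖) e3
    simp only [norm_mul, hlam, one_mul, Complex.norm_real, Real.norm_eq_abs,
      abs_of_nonneg (Real.sqrt_nonneg _)] at this
    exact this
  have hp : ((Real.sqrt (s3 R G y' / Real.pi) : ℝ) : ℂ) ≠ 0 := by
    have : 0 < Real.sqrt (s3 R G y' / Real.pi) := Real.sqrt_pos.2 (by positivity)
    exact_mod_cast this.ne'
  have hl : lam = 1 := by
    rw [hn] at e3
    have := mul_right_cancel₀ hp ((one_mul _).trans e3)
    exact this.symm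
  subst hl
  simp only [one_mul] at h
  have e0 := h 0
  have e1 := h 1
  have e2 := h 2
  rw [Bs_0, Bs_0] at e0
  rw [Bs_1, Bs_1] at e1
  rw [Bs_2, Bs_2] at e2
  obtain ⟨l, hl⟩ := hG.inj (y 0, y 1) (y' 0, y' 1) hr hr' (Prod.ext e0 e2)
  refine ⟨l, ?_⟩
  funext b
  revert b
  have hl1 := congrArg Prod.fst hl
  have hl2 := congrArg Prod.snd hl
  simp only at hl1 hl2
  refine forall_slots ?_ ?_ ?_ ?_
  · rw [tr_zero, hl1]
  · rw [tr_ne l y one_ne', hl2]
  · rw [tr_ne l y two_ne', e1]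
  · intro j
    rw [tr_ne l y (Fin.succ_ne_zero _)]
    have e4 := h j.succ.succ.succ.succ
    rw [Bs_4, Bs_4] at e4
    exact e4.symm

include hG in
theorem Bs_case_one {lam : ℂ} (hlam : ‖lam‖ = 1) {y y' : Fin (k + 3) → ℂ} (hr : ‖y 1‖ < r)
    (hr' : ‖y' 1‖ < r) (hr2' : ‖y' 2‖ < r) (hδ : 0 < δ) (hε : 0 ≤ ε)
    (hL : 2 * δ + 4 * ε < Lf R y) (hL' : 2 * δ + 4 * ε < Lf R y')
    (hk : |(y 0).re| ≤ Lf R y / 2) (hk' : |(y' 0).re| ≤ Lf R y' / 2)
    (h : ∀ j, Bs R G y (cyc j) = lam * Bs R G y' j) : ∃ l : ℤ, Tm R 1 y' = tr l y := by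
  have ha : ∀ j, ar (Bs R G y (cyc j)) = ar (Bs R G y' j) := by
    intro j; rw [h j, ar_mul_of_norm_one hlam]
  have h0 := s3_ge (R := R) hG y hr
  have a0 := ha 0
  have a2 := ha 2
  rw [cyc_0, Bs_3, Bs_0] at a0
  rw [cyc_2, Bs_1, Bs_2] at a2
  have h3 : 0 < s3 R G y := by
    have := ar_nonneg (y 2)
    linarith
  rw [sqrt_real_ar h3.le] at a0
  have hd := hG.diff (y' 0, y' 1) hr'
  simp only at hd
  have hk2 : (y' 0).re = s3 R G y - ar (y 2) := by rw [← hd, ← a0, ← a2]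
  have hk3 : δ < (y' 0).re := by rw [hk2]; linarith
  have hk4 : ε < (y' 0).re := by rw [hk2]; linarith
  have hk5 : (y' 0).re ≤ Lf R y' / 2 := (le_abs_self _).trans hk'
  have ho := Bs_overlap hG y' hr' hr2' hk3.le (by linarith) hδ
  have h5 : ∀ j, Bs R G y (cyc j) = (lam * ee (y' 0).im) * Bs R G (Tm R 1 y') (cyc j) := by
    intro j
    rw [h j, ho, mul_assoc]
  have h6 : ∀ j, Bs R G y j = (lam * ee (y' 0).im) * Bs R G (Tm R 1 y') j := by
    intro j
    have := h5 (cyc.symm j)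
    rwa [Equiv.apply_symm_apply] at this
  have hrT : ‖Tm R 1 y' 1‖ < r := by
    rw [Tm_ne R 1 y' one_ne']
    have : (swm 1 : Equiv.Perm (Fin (k + 3))) = Equiv.swap 1 2 := by
      unfold swm; rw [if_neg (by decide)]
    rw [this, Equiv.swap_apply_left, norm_mul, ee_norm, one_mul]
    exact hr2'
  have h7 := s3_ge (R := R) hG (Tm R 1 y') hrT
  rw [Lf_Tm, Tm_re] at h7
  have h8 : |(y' 0).re - ((1 : ℤ) : ℝ) * Lf R y'| = Lf R y' - (y' 0).re := by
    rw [abs_of_nonpos]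
    · push_cast; ring
    · push_cast; linarith
  rw [h8] at h7
  have h9 : 0 < s3 R G (Tm R 1 y') := by
    have := ar_nonneg (Tm R 1 y' 2)
    linarith
  exact Bs_core hG (by rw [norm_mul, hlam, ee_norm, one_mul]) hr hrT h3 h9 h6

include hG in
theorem Bs_case_two {lam : ℂ} (hlam : ‖lam‖ = 1) {y y' : Fin (k + 3) → ℂ} (hr : ‖y 1‖ < r)
    (hr' : ‖y' 1‖ < r)
    (hL : |(y 0).re| + ε < Lf R y) (hL' : |(y' 0).re| + ε < Lf R y')
    (h : ∀ j, Bs R G y (cyc (cyc j)) = lam * Bs R G y' j) : False := by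
  have ha : ∀ j, ar (Bs R G y (cyc (cyc j))) = ar (Bs R G y' j) := by
    intro j; rw [h j, ar_mul_of_norm_one hlam]
  have h0 := s3_ge (R := R) hG y hr
  have h0' := s3_ge (R := R) hG y' hr'
  have a1 := ha 1
  have a3 := ha 3
  rw [cyc_1, cyc_0, Bs_3, Bs_1] at a1
  rw [cyc_3, cyc_2, Bs_1, Bs_3] at a3
  have n2 := ar_nonneg (y 2)
  have n2' := ar_nonneg (y' 2)
  rw [sqrt_real_ar (by linarith)] at a1
  rw [sqrt_real_ar (by linarith)] at a3
  linarith

end

theorem cyc_reduce (m : ℤ) : ∃ q s : ℤ, m = 4 * q + s ∧ (s = 0 ∨ s = 1 ∨ s = 2 ∨ s = -1) ∧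
    (cyc : Equiv.Perm (Fin (k + 4))) ^ m = cyc ^ s := by
  obtain ⟨q, s, h, hs⟩ : ∃ q s : ℤ, m = 4 * q + s ∧ (s = 0 ∨ s = 1 ∨ s = 2 ∨ s = -1) :=
    ⟨(m + 1) / 4, m - 4 * ((m + 1) / 4), by omega, by omega⟩
  exact ⟨q, s, h, hs, by rw [h, zpow_add, cyc_zpow_four, one_mul]⟩

section

variable (hG : GateSpec r δ ε G)

/-- data of the domain -/
structure Par (R r δ ε c : ℝ) : Prop where
  hR : |R| + 1 ≤ r
  hδ : 0 < δ
  hε : 0 ≤ ε
  hc : 2 * δ + 4 * ε ≤ c

theorem round_re {c : ℝ} (hP : Par R r δ ε c) {w : Fin (k + 3) → ℂ} (hw : c < Lf R w) :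
    |(Tm R (round ((w 0).re / Lf R w)) w 0).re| ≤ Lf R w / 2 := by
  have hL : 0 < Lf R w := by linarith [hP.hδ, hP.hε, hP.hc]
  rw [Tm_re]
  have h1 := abs_sub_round ((w 0).re / Lf R w)
  have h2 : (w 0).re - (round ((w 0).re / Lf R w) : ℝ) * Lf R w =
      ((w 0).re / Lf R w - (round ((w 0).re / Lf R w) : ℝ)) * Lf R w := by
    field_simp
  rw [h2, abs_mul, abs_of_pos hL]
  nlinarith

include hG in
theorem Gam_inj {c : ℝ} (hP : Par R r δ ε c) (w w' : Fin (k + 3) → ℂ) (hw : c < Lf R w)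
    (hw' : c < Lf R w') (lam : ℂ) (hlam : ‖lam‖ = 1) (h : Gam R G w = lam • Gam R G w') :
    ∃ m l : ℤ, w' = Fr R (4 * m) (w + Pi.single 0 ((l : ℂ) * Complex.I)) := by
  obtain ⟨hR, hδ, hε, hc⟩ := hP
  have hP : Par R r δ ε c := ⟨hR, hδ, hε, hc⟩
  have hL : 0 < Lf R w := by linarith
  have hL' : 0 < Lf R w' := by linarith
  set m := round ((w 0).re / Lf R w) with hm
  set m' := round ((w' 0).re / Lf R w') with hm'
  set y := Tm R m w with hy
  set y' := Tm R m' w' with hy'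
  have hk : |(y 0).re| ≤ Lf R w / 2 := round_re hP hw
  have hk' : |(y' 0).re| ≤ Lf R w' / 2 := round_re hP hw'
  have hLy : Lf R y = Lf R w := Lf_Tm R m w
  have hLy' : Lf R y' = Lf R w' := Lf_Tm R m' w'
  have r1 : ‖y 1‖ < r := norm_Tm_lt hR hL m one_ne'
  have r2 : ‖y 2‖ < r := norm_Tm_lt hR hL m two_ne'
  have r1' : ‖y' 1‖ < r := norm_Tm_lt hR hL' m' one_ne'
  have r2' : ‖y' 2‖ < r := norm_Tm_lt hR hL' m' two_ne'
  -- the equation in terms of `y, y'`
  set mu : ℂ := ee (-(m * (w 0).im)) * lam * ee (m' * (w' 0).im) with hmu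
  have hmun : ‖mu‖ = 1 := by
    rw [hmu, norm_mul, norm_mul, ee_norm, ee_norm, hlam]; norm_num
  have h1 : ∀ j, Bs R G y (((cyc : Equiv.Perm (Fin (k + 4))) ^ (m - m')) j) =
      mu * Bs R G y' j := by
    intro j
    have h2 := congrFun h (((cyc : Equiv.Perm (Fin (k + 4))) ^ (-m')) j)
    rw [Pi.smul_apply, smul_eq_mul] at h2
    unfold Gam at h2
    rw [← hm, ← hm', ← hy, ← hy', ← Equiv.Perm.mul_apply, ← Equiv.Perm.mul_apply, ← zpow_add,
      ← zpow_add, add_neg_cancel, zpow_zero, Equiv.Perm.one_apply, ← sub_eq_add_neg] at h2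
    calc Bs R G y (((cyc : Equiv.Perm (Fin (k + 4))) ^ (m - m')) j)
        = ee (-(m * (w 0).im)) * (ee (m * (w 0).im) *
          Bs R G y (((cyc : Equiv.Perm (Fin (k + 4))) ^ (m - m')) j)) := by
          rw [← mul_assoc, ee_neg_mul, one_mul]
      _ = _ := by rw [h2, hmu]; ring
  -- the conclusion in terms of `y, y'`
  have key : ∃ e l q : ℤ, m - m' + e = 4 * q ∧ y' = Tm R e (tr l y) := by
    obtain ⟨q, s, hs, hs4, hcyc⟩ := cyc_reduce (k := k) (m - m')
    rw [hcyc] at h1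
    have p3 : 0 < s3 R G y := by
      have := s3_ge (R := R) hG y r1
      have := ar_nonneg (y 2)
      linarith
    have p3' : 0 < s3 R G y' := by
      have := s3_ge (R := R) hG y' r1'
      have := ar_nonneg (y' 2)
      linarith
    rcases hs4 with rfl | rfl | rfl | rfl
    · simp only [zpow_zero, Equiv.Perm.one_apply] at h1
      obtain ⟨l, hl⟩ := Bs_core hG hmun r1 r1' p3 p3' h1
      exact ⟨0, l, q, by linarith, by rw [Tm_zero', hl]⟩
    · simp only [zpow_one] at h1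
      obtain ⟨l, hl⟩ := Bs_case_one hG hmun r1 r1' r2' hδ hε (by linarith) (by linarith)
        (by linarith) (by linarith) h1
      exact ⟨-1, l, q, by linarith, by rw [← hl, Tm_neg]⟩
    · exfalso
      refine Bs_case_two hG hmun r1 r1' (by linarith) (by linarith) (fun j => ?_)
      rw [← h1 j]
      rfl
    · have h2 : ∀ j, Bs R G y' (cyc j) = mu⁻¹ * Bs R G y j := by
        intro j
        have h3 := h1 (cyc j)
        have h4 : ((cyc : Equiv.Perm (Fin (k + 4))) ^ (-1 : ℤ)) (cyc j) = j := by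
          rw [zpow_neg_one]; exact Equiv.symm_apply_apply _ _
        rw [h4] at h3
        have hmu0 : mu ≠ 0 := by
          intro h0
          rw [h0, norm_zero] at hmun
          exact zero_ne_one hmun
        rw [h3, ← mul_assoc, inv_mul_cancel₀ hmu0, one_mul]
      obtain ⟨l, hl⟩ := Bs_case_one hG (by rw [norm_inv, hmun, inv_one]) r1' r1 r2 hδ hε
        (by linarith) (by linarith) (by linarith) (by linarith) h2
      refine ⟨1, -l, q, by linarith, ?_⟩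
      rw [Tm_tr, hl, tr_tr, neg_add_cancel, tr_zero']
  obtain ⟨e, l, q, he, hyy⟩ := key
  refine ⟨q, l, ?_⟩
  have h5 : w' = Tm R (4 * q) (tr l w) := by
    calc w' = Tm R (-m') y' := (Tm_neg R m' w').symm
      _ = Tm R (-m') (Tm R e (Tm R m (tr l w))) := by rw [hyy, hy, Tm_tr R m l w]
      _ = Tm R (4 * q) (tr l w) := by
        rw [← Tm_add, ← Tm_add, ← he]
        congr 1
        ring
  rw [h5, Tm_four]
  rfl

end

end Vale.Agent.P209.H684
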