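import Vale.Agent.P209.H684.Model2

/-!
# The model map: the trace of the hyperplane, smoothness, symplecticity
-/

namespace Vale.Agent.P209.H684

open Vale.Agent.P209 Vale.Agent.P209.Strong
open scoped ContDiff

variable {k : ℕ} {R r δ ε c : ℝ} {G : ℂ × ℂ → ℂ × ℂ}

theorem Gam_single (R : ℝ) (G : ℂ × ℂ → ℂ × ℂ) (w : Fin (k + 3) → ℂ) (j : Fin k) :
    Gam R G w j.succ.succ.succ.succ = w j.succ.succ.succ := by
  unfold Gam
  rw [cyc_zpow_single, Bs_4, Tm_ne _ _ _ (Fin.succ_ne_zero _), cf_succ, swm_succ', ← mul_assoc]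
  push_cast
  rw [mul_one, ee_mul_neg, one_mul]

section

variable (hG : GateSpec r δ ε G)

include hG in
theorem Gam_sphere (hP : Par R r δ ε c) (w : Fin (k + 3) → ℂ) (hw : c < Lf R w) :
    Real.pi * ∑ j, ‖Gam R G w j‖ ^ 2 = R := by
  obtain ⟨hR, hδ, hε, hc⟩ := hP
  have hP : Par R r δ ε c := ⟨hR, hδ, hε, hc⟩
  have hL : 0 < Lf R w := by linarith
  have hk := round_re hP hw
  set m := round ((w 0).re / Lf R w) with hm
  have r1 : ‖Tm R m w 1‖ < r := norm_Tm_lt hR hL m one_ne'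
  have h1 := Bs_sphere (R := R) hG (Tm R m w) r1 (by rw [Lf_Tm]; linarith)
  refine Eq.trans ?_ h1
  rw [Finset.mul_sum, ← Equiv.sum_comp ((cyc : Equiv.Perm (Fin (k + 4))) ^ m)
    (fun j => ar (Bs R G (Tm R m w) j))]
  refine Finset.sum_congr rfl fun j _ => ?_
  have : Real.pi * ‖Gam R G w j‖ ^ 2 = ar (Gam R G w j) := rfl
  rw [this]
  unfold Gam
  rw [ar_mul_of_norm_one (ee_norm _)]

include hG in
theorem Gam_trace (hP : Par R r δ ε c) (w : Fin (k + 3) → ℂ) (hw : c < Lf R w)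
    (h : Gam R G w 0 + Complex.I * Gam R G w 2 = 0) :
    ∃ m : ℤ, (w 0).re = 2 * m * Lf R w ∧
      ((Even m ∧ ee (2 * (w 0).im) = -Complex.I) ∨ (Odd m ∧ ee (2 * (w 0).im) = Complex.I)) := by
  obtain ⟨hR, hδ, hε, hc⟩ := hP
  have hP : Par R r δ ε c := ⟨hR, hδ, hε, hc⟩
  have hL : 0 < Lf R w := by linarith
  have hk := round_re hP hw
  unfold Gam at h
  set m := round ((w 0).re / Lf R w) with hm
  set y := Tm R m w with hy
  have hLy : Lf R y = Lf R w := Lf_Tm R m w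
  have hre : (y 0).re = (w 0).re - m * Lf R w := Tm_re R m w
  have him : (y 0).im = (w 0).im := Tm_im R m w
  have r1 : ‖y 1‖ < r := norm_Tm_lt hR hL m one_ne'
  have h3 := s3_ge (R := R) hG y r1
  have n2 := ar_nonneg (y 2)
  have p3 : ar (y 2) < s3 R G y := by linarith
  have ha3 : ar (Bs R G y 3) = s3 R G y := by rw [Bs_3, sqrt_real_ar (by linarith)]
  have ha1 : ar (Bs R G y 1) = ar (y 2) := by rw [Bs_1]
  have hz : Bs R G y (((cyc : Equiv.Perm (Fin (k + 4))) ^ m) 0) +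
      Complex.I * Bs R G y (((cyc : Equiv.Perm (Fin (k + 4))) ^ m) 2) = 0 := by
    have h1 : ee (m * (w 0).im) * (Bs R G y (((cyc : Equiv.Perm (Fin (k + 4))) ^ m) 0) +
      Complex.I * Bs R G y (((cyc : Equiv.Perm (Fin (k + 4))) ^ m) 2)) = 0 := by
      rw [← h]; ring
    exact (mul_eq_zero.1 h1).resolve_left (ee_ne_zero _)
  obtain ⟨q, s, hs, hs4, hcyc⟩ := cyc_reduce (k := k) m
  rw [hcyc] at hz
  have harea : ∀ a b : ℂ, a + Complex.I * b = 0 → ar a = ar b := by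
    intro a b hab
    have : a = -(Complex.I * b) := by linear_combination hab
    rw [this]
    unfold ar
    rw [norm_neg, norm_mul, Complex.norm_I, one_mul]
  rcases hs4 with rfl | rfl | rfl | rfl
  · simp only [zpow_zero, Equiv.Perm.one_apply] at hz
    have h5 := harea _ _ hz
    rw [Bs_0, Bs_2] at h5
    have h6 := hG.diff (y 0, y 1) r1
    simp only at h6
    have h7 : (y 0).re = 0 := by rw [← h6, h5, sub_self]
    obtain ⟨h8, h9⟩ := hG.zero (y 0, y 1) r1 h7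
    simp only at h8
    rw [Bs_0, Bs_2, h8, him] at hz
    have h10 : ee (2 * (w 0).im) + Complex.I = 0 := by
      have : (ee (2 * (w 0).im) + Complex.I) * (G (y 0, y 1)).2 = 0 := by rw [← hz]; ring
      exact (mul_eq_zero.1 this).resolve_right h9
    refine ⟨2 * q, ?_, Or.inl ⟨even_two_mul q, by linear_combination h10⟩⟩
    rw [h7] at hre
    rw [hs] at hre
    push_cast at hre ⊢
    linarith
  · simp only [zpow_one] at hz
    rw [cyc_0, cyc_2] at hz
    have h5 := harea _ _ hz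
    rw [ha3, ha1] at h5
    linarith
  · have e0 : ((cyc : Equiv.Perm (Fin (k + 4))) ^ (2 : ℤ)) 0 = 2 := rfl
    have e2 : ((cyc : Equiv.Perm (Fin (k + 4))) ^ (2 : ℤ)) 2 = 0 := rfl
    rw [e0, e2] at hz
    have h5 := harea _ _ hz
    rw [Bs_0, Bs_2] at h5
    have h6 := hG.diff (y 0, y 1) r1
    simp only at h6
    have h7 : (y 0).re = 0 := by rw [← h6, h5, sub_self]
    obtain ⟨h8, h9⟩ := hG.zero (y 0, y 1) r1 h7
    simp only at h8
    rw [Bs_0, Bs_2, h8, him] at hz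
    have h10 : 1 + Complex.I * ee (2 * (w 0).im) = 0 := by
      have : (1 + Complex.I * ee (2 * (w 0).im)) * (G (y 0, y 1)).2 = 0 := by rw [← hz]; ring
      exact (mul_eq_zero.1 this).resolve_right h9
    refine ⟨2 * q + 1, ?_, Or.inr ⟨odd_two_mul_add_one q, ?_⟩⟩
    · rw [h7] at hre
      rw [hs] at hre
      push_cast at hre ⊢
      linarith
    · linear_combination (-Complex.I) * h10 + (ee (2 * (w 0).im)) * Complex.I_mul_I
  · have e0 : ((cyc : Equiv.Perm (Fin (k + 4))) ^ (-1 : ℤ)) 0 = 1 := rfl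
    have e2 : ((cyc : Equiv.Perm (Fin (k + 4))) ^ (-1 : ℤ)) 2 = 3 := rfl
    rw [e0, e2] at hz
    have h5 := harea _ _ hz
    rw [ha3, ha1] at h5
    linarith

end

/-- The local charts of `Gam`. -/
noncomputable def Em (R : ℝ) (G : ℂ × ℂ → ℂ × ℂ) (m : ℤ) (w : Fin (k + 3) → ℂ) :
    Fin (k + 4) → ℂ :=
  fun j => ee (m * (w 0).im) * Bs R G (Tm R m w) (((cyc : Equiv.Perm (Fin (k + 4))) ^ m) j)

section

variable (hG : GateSpec r δ ε G)

include hG in
theorem Em_succ (hP : Par R r δ ε c) (m : ℤ) (w : Fin (k + 3) → ℂ) (hw : c < Lf R w)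
    (h1 : δ ≤ (w 0).re - m * Lf R w) (h2 : (w 0).re - m * Lf R w ≤ Lf R w - δ) :
    Em R G m w = Em R G (m + 1) w := by
  obtain ⟨hR, hδ, hε, hc⟩ := hP
  have hL : 0 < Lf R w := by linarith
  have ho := Bs_overlap hG (Tm R m w) (norm_Tm_lt hR hL m one_ne') (norm_Tm_lt hR hL m two_ne')
    (by rw [Tm_re]; exact h1) (by rw [Tm_re, Lf_Tm]; exact h2) hδ
  funext j
  unfold Em
  rw [ho, Tm_im, ← Tm_add, ← mul_assoc, ← ee_add, add_comm 1 m]
  have e1 : ((m + 1 : ℤ) : ℝ) * (w 0).im = m * (w 0).im + (w 0).im := by push_cast; ring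
  have e2 : (cyc : Equiv.Perm (Fin (k + 4))) ^ (m + 1) = cyc * cyc ^ m := by
    rw [add_comm m 1, zpow_add, zpow_one]
  rw [e1, e2]
  rfl

include hG in
theorem Gam_eq_Em (hP : Par R r δ ε c) (m : ℤ) (w : Fin (k + 3) → ℂ) (hw : c < Lf R w)
    (h : |(w 0).re - m * Lf R w| < Lf R w - δ) : Gam R G w = Em R G m w := by
  have hP' := hP
  obtain ⟨hR, hδ, hε, hc⟩ := hP
  have hL : 0 < Lf R w := by linarith
  have hk := round_re hP' hw
  rw [Tm_re] at hk
  have h0 : Gam R G w = Em R G (round ((w 0).re / Lf R w)) w := rfl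
  rw [h0]
  set n := round ((w 0).re / Lf R w) with hn
  rw [abs_lt] at h
  rw [abs_le] at hk
  obtain ⟨h1, h2⟩ := h
  obtain ⟨h3, h4⟩ := hk
  have h5 : ((n : ℝ) - m) * Lf R w < 2 * Lf R w := by linarith
  have h6 : -(2 * Lf R w) < ((n : ℝ) - m) * Lf R w := by linarith
  have h7 : (n : ℝ) - m < 2 := lt_of_mul_lt_mul_right h5 hL.le
  have h8 : -2 < (n : ℝ) - m := by
    have : (-2 : ℝ) * Lf R w < ((n : ℝ) - m) * Lf R w := by linarith
    exact lt_of_mul_lt_mul_right this hL.le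
  have h7' : n - m < 2 := by exact_mod_cast h7
  have h8' : -2 < n - m := by exact_mod_cast h8
  have h9 : n = m ∨ n = m + 1 ∨ m = n + 1 := by omega
  rcases h9 with h9 | h9 | h9
  · rw [h9]
  · have hcast : (n : ℝ) = m + 1 := by rw [h9]; push_cast; ring
    rw [h9, ← Em_succ hG hP' m w hw]
    · rw [hcast] at h3 h4
      linarith
    · linarith
  · have hcast : (m : ℝ) = n + 1 := by rw [h9]; push_cast; ring
    rw [h9, Em_succ hG hP' n w hw]
    · rw [hcast] at h1 h2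
      linarith
    · linarith

end

/-! ### smoothness -/

theorem slot_contDiff (b : Fin (k + 3)) : ContDiff ℝ ∞ (fun w : Fin (k + 3) → ℂ => w b) :=
  contDiff_apply ℝ ℂ b

theorem Lf_contDiff : ContDiff ℝ ∞ (Lf R : (Fin (k + 3) → ℂ) → ℝ) := by
  unfold Lf
  exact contDiff_const.sub (ContDiff.sum fun b _ =>
    contDiff_const.mul (ar_contDiff.comp (slot_contDiff b)))

theorem Tm_contDiff (R : ℝ) (m : ℤ) :
    ContDiff ℝ ∞ (Tm R m : (Fin (k + 3) → ℂ) → (Fin (k + 3) → ℂ)) := by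
  rw [contDiff_pi]
  intro b
  by_cases hb : b = 0
  · subst hb
    have : (fun w : Fin (k + 3) → ℂ => Tm R m w 0) =
        fun w => w 0 - ((m * Lf R w : ℝ) : ℂ) := by funext w; exact Tm_zero R m w
    rw [this]
    exact (slot_contDiff 0).sub (Complex.ofRealCLM.contDiff.comp
      (contDiff_const.mul Lf_contDiff))
  · have : (fun w : Fin (k + 3) → ℂ => Tm R m w b) =
        fun w => ee (-(m * cf b * (w 0).im)) * w (swm m b) := by funext w; exact Tm_ne R m w hb
    rw [this]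
    exact (ee_contDiff.comp ((contDiff_const.mul
      (Complex.imCLM.contDiff.comp (slot_contDiff 0))).neg)).mul (slot_contDiff _)

section

variable (hG : GateSpec r δ ε G)

include hG in
theorem s3_contDiffAt {y : Fin (k + 3) → ℂ} (hr : ‖y 1‖ < r) : ContDiffAt ℝ ∞ (s3 R G) y := by
  have hg : ContDiffAt ℝ ∞ (fun y : Fin (k + 3) → ℂ => G (y 0, y 1)) y :=
    (hG.smooth (y 0, y 1) hr).comp y
      ((slot_contDiff 0).contDiffAt.prodMk (slot_contDiff 1).contDiffAt)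
  have h1 : ContDiffAt ℝ ∞ (fun y : Fin (k + 3) → ℂ => ar (G (y 0, y 1)).1) y :=
    ar_contDiff.contDiffAt.comp y hg.fst
  have h2 : ContDiffAt ℝ ∞ (fun y : Fin (k + 3) → ℂ => ar (G (y 0, y 1)).2) y :=
    ar_contDiff.contDiffAt.comp y hg.snd
  have h3 : ContDiffAt ℝ ∞ (fun y : Fin (k + 3) → ℂ => ar (y 2)) y :=
    ar_contDiff.contDiffAt.comp y (slot_contDiff 2).contDiffAt
  have h4 : ContDiffAt ℝ ∞ (sg : (Fin (k + 3) → ℂ) → ℝ) y := by
    unfold sg
    exact ContDiffAt.sum fun j _ => ar_contDiff.contDiffAt.comp y (slot_contDiff _).contDiffAt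
  exact ((contDiffAt_const.sub (h1.add h2)).sub h3).sub h4

include hG in
theorem Bs_contDiffAt {y : Fin (k + 3) → ℂ} (hr : ‖y 1‖ < r) (h3 : 0 < s3 R G y) :
    ContDiffAt ℝ ∞ (Bs R G) y := by
  have hpi := Real.pi_pos
  have hg : ContDiffAt ℝ ∞ (fun y : Fin (k + 3) → ℂ => G (y 0, y 1)) y :=
    (hG.smooth (y 0, y 1) hr).comp y
      ((slot_contDiff 0).contDiffAt.prodMk (slot_contDiff 1).contDiffAt)
  rw [contDiffAt_pi]
  refine forall_slots' hg.fst (slot_contDiff 2).contDiffAt hg.snd ?_ ?_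
  · have h4 : ContDiffAt ℝ ∞ (fun y => s3 R G y / Real.pi) y :=
      (s3_contDiffAt hG hr).div_const _
    exact Complex.ofRealCLM.contDiff.contDiffAt.comp y (h4.sqrt (by positivity))
  · intro j
    exact (slot_contDiff j.succ.succ.succ).contDiffAt

theorem Tm_s3_pos (hG : GateSpec r δ ε G) (hP : Par R r δ ε c) (m : ℤ) (w : Fin (k + 3) → ℂ)
    (hw : c < Lf R w) (h : |(w 0).re - m * Lf R w| < Lf R w - δ - ε) :
    0 < s3 R G (Tm R m w) := by
  obtain ⟨hR, hδ, hε, hc⟩ := hP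
  have hL : 0 < Lf R w := by linarith
  have h1 := s3_ge (R := R) hG (Tm R m w) (norm_Tm_lt hR hL m one_ne')
  rw [Lf_Tm, Tm_re] at h1
  have := ar_nonneg (Tm R m w 2)
  linarith

include hG in
theorem Em_contDiffAt (hP : Par R r δ ε c) (m : ℤ) (w : Fin (k + 3) → ℂ) (hw : c < Lf R w)
    (h : |(w 0).re - m * Lf R w| < Lf R w - δ - ε) : ContDiffAt ℝ ∞ (Em R G m) w := by
  have h3 := Tm_s3_pos hG hP m w hw h
  obtain ⟨hR, hδ, hε, hc⟩ := hP
  have hL : 0 < Lf R w := by linarith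
  have hB : ContDiffAt ℝ ∞ (fun w => Bs R G (Tm R m w)) w :=
    (Bs_contDiffAt hG (norm_Tm_lt hR hL m one_ne') h3).comp w (Tm_contDiff R m).contDiffAt
  rw [contDiffAt_pi] at hB ⊢
  intro j
  exact (ee_contDiff.comp (contDiff_const.mul
    (Complex.imCLM.contDiff.comp (slot_contDiff 0)))).contDiffAt.mul (hB _)

include hG in
/-- near every point of the domain `Gam` is one of the local charts -/
theorem Gam_eventually (hP : Par R r δ ε c) (w : Fin (k + 3) → ℂ) (hw : c < Lf R w) :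
    ∃ m : ℤ, |(w 0).re - m * Lf R w| < Lf R w - δ - ε ∧ Gam R G =ᶠ[nhds w] Em R G m := by
  have hk := round_re hP hw
  rw [Tm_re] at hk
  have hP' := hP
  obtain ⟨hR, hδ, hε, hc⟩ := hP
  set m := round ((w 0).re / Lf R w) with hm
  have h1 : |(w 0).re - m * Lf R w| < Lf R w - δ - ε := by linarith
  refine ⟨m, h1, ?_⟩
  have hLc : Continuous (Lf R : (Fin (k + 3) → ℂ) → ℝ) := Lf_contDiff.continuous
  have hrc : Continuous (fun w : Fin (k + 3) → ℂ => (w 0).re) :=
    Complex.continuous_re.comp (continuous_apply 0)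
  have o1 : IsOpen {w : Fin (k + 3) → ℂ | c < Lf R w} := isOpen_lt continuous_const hLc
  have o2 : IsOpen {w : Fin (k + 3) → ℂ | |(w 0).re - m * Lf R w| < Lf R w - δ} :=
    isOpen_lt ((hrc.sub (continuous_const.mul hLc)).abs) (hLc.sub continuous_const)
  have h2 : |(w 0).re - m * Lf R w| < Lf R w - δ := by linarith
  filter_upwards [o1.mem_nhds hw, o2.mem_nhds h2] with w' a1 a2
  exact Gam_eq_Em hG hP' m w' a1 a2

include hG in
theorem Gam_smooth (hP : Par R r δ ε c) :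
    ContDiffOn ℝ ∞ (Gam R G : (Fin (k + 3) → ℂ) → (Fin (k + 4) → ℂ)) {w | c < Lf R w} := by
  intro w hw
  obtain ⟨m, h1, h2⟩ := Gam_eventually hG hP w hw
  exact ((Em_contDiffAt hG hP m w hw h1).congr_of_eventuallyEq h2).contDiffWithinAt

end

end Vale.Agent.P209.H684
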