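import Vale.Agent.P209.H58.Rem.RowLA
import Vale.Agent.P209.H686.Left
import Vale.Agent.P209.H687.Strip1

set_option linter.all false

/-!
# The middle chart: areas, and comparison with the left and right charts on the static part
-/

namespace Vale.Agent.P209.H684.Mid

open Vale.Agent.P209 H684 H578 H721 H974 H686 H687
open Vale.Agent.P209.Strong hiding chi
open scoped ContDiff

variable {R c m η : ℝ} (D : Dat R c m η)

/-- the static straight form of the top side -/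
noncomputable def XT (v : Fin 3 → ℂ) : Fin 3 → ℂ := preT R c D.τ2 D.φ2 D.g1 v

/-- the argument of the gate of `z_1` -/
noncomputable def yT (v : Fin 3 → ℂ) : ℂ × ℂ :=
  (((ar (D.τ2 (v 2)) + ar (v 1) - c : ℝ) : ℂ) +
      ((D.φ2 (v 2) - (v 0).im : ℝ) : ℂ) * Complex.I, ee (-(D.φ2 (v 2))) * v 1)

theorem XT_0 (v : Fin 3 → ℂ) : XT D v 0 =
    (((v 0).re + (R + c) / 2 + (ar (D.τ2 (v 2)) + ar (v 1) - c) : ℝ) : ℂ) +
      (((v 0).im : ℝ) : ℂ) * Complex.I := rfl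
theorem XT_1 (v : Fin 3 → ℂ) : XT D v 1 = (D.g1 (yT D v)).1 := rfl
theorem XT_2 (v : Fin 3 → ℂ) : XT D v 2 = (D.g1 (yT D v)).2 := rfl
theorem XT_0_re (v : Fin 3 → ℂ) :
    (XT D v 0).re = (v 0).re + (R + c) / 2 + (ar (D.τ2 (v 2)) + ar (v 1) - c) := by
  rw [XT_0, a1_re]
theorem XT_0_im (v : Fin 3 → ℂ) : (XT D v 0).im = (v 0).im := by
  rw [XT_0, a1_im]

theorem yT_re (v : Fin 3 → ℂ) : (yT D v).1.re = ar (D.τ2 (v 2)) + ar (v 1) - c := by
  unfold yT
  simp only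
  rw [a1_re]

theorem yT_snd (v : Fin 3 → ℂ) : (yT D v).2 = ee (-(D.φ2 (v 2))) * v 1 := rfl

theorem ar_yT (v : Fin 3 → ℂ) : ar (yT D v).2 = ar (v 1) := by
  rw [yT_snd, ar_mul_of_norm_one (ee_norm _)]

/-- the value of `q` on the target -/
noncomputable def qst (v : Fin 3 → ℂ) : ℝ :=
  D.qs ((v 0).re, c + 3 * ar (XT D v 1) - ar (XT D v 2))

/-- areas of the static form -/
structure MAr (v : Fin 3 → ℂ) : Prop where
  n1 : ‖v 1‖ < D.r
  n2 : ‖v 2‖ < D.r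
  ny : ‖(yT D v).2‖ < D.r
  a_lo : D.ε1 < ar (D.τ2 (v 2))
  a_hi : ar (D.τ2 (v 2)) ≤ ar (v 2) + m / 100
  s1 : D.s1 (yT D v).1.re = 1
  diff : ar (XT D v 1) - ar (XT D v 2) = ar (D.τ2 (v 2)) + ar (v 1) - c
  sum : ar (XT D v 1) + ar (XT D v 2) ≤
    2 * ar (v 1) + |ar (D.τ2 (v 2)) + ar (v 1) - c| + D.ε1
  pos1 : 0 < ar (XT D v 1)
  pos2 : 0 < ar (XT D v 2)
  L_pos : 0 < c + 3 * ar (XT D v 1) - ar (XT D v 2)
  L_le : c + 3 * ar (XT D v 1) - ar (XT D v 2) ≤ Lam c m (uu v)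
  rest : m < R - ar (XT D v 1) - ar (XT D v 2)
  x0_lt : ar (XT D v 2) < c

theorem mAr (hH : Hyp R c m η) {v : Fin 3 → ℂ} (hv : uu v ∈ Vm R c m) : MAr D v := by
  obtain ⟨h1, h2, h3, h4, h5⟩ := H58.Rem.Vm_num hH hv
  have hn1 := H58.Rem.norm_lt_1 D hH hv
  have hn2 := H58.Rem.norm_lt_2 D hH hv
  have hL := Lam_ge (c := c) (u := uu v) hH.1
  obtain ⟨k1, k2, k3, k4, k5⟩ := hH
  have hε := D.hε1
  have hε' := D.hε1'
  have hny : ‖(yT D v).2‖ < D.r := by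
    rw [yT_snd, norm_mul, ee_norm, one_mul]
    exact hn1
  have hlo := D.low2 (v 2) (by linarith)
  have hhi := D.og2.tau_ar (v 2) hn2
  have hs1 : D.s1 (yT D v).1.re = 1 := D.hs1.one _ (by rw [yT_re]; linarith)
  have hd := D.og1.diff (yT D v) hny
  have hs := D.og1.sum (yT D v) hny
  have hp1 := D.og1.pos1 (yT D v) hny hs1
  have hp2 := D.og1.pos2 (yT D v) hny hs1
  have hτ := ar_pos.2 (D.og1.tau_ne _ hny)
  rw [yT_re] at hd hs
  rw [ar_yT] at hs
  rw [← XT_1, ← XT_2] at hd hs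
  rw [← XT_1] at hp1
  rw [← XT_2] at hp2
  rw [H58.Rem.uu0, H58.Rem.uu1] at hL
  have hp1' : 0 < ar (XT D v 1) := hτ.trans_le hp1
  have hp2' : 0 < ar (XT D v 2) := hτ.trans_le hp2
  refine ⟨hn1, hn2, hny, hlo, hhi, hs1, hd, hs, hp1', hp2', ?_, ?_, ?_, ?_⟩
  all_goals
    generalize ar (XT D v 1) = x2 at *
    generalize ar (XT D v 2) = x0 at *
    generalize ar (D.τ2 (v 2)) = a at *
    generalize ar (v 1) = u1 at *
    generalize ar (v 2) = u2 at *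
    generalize Lam c m (uu v) = Λ at *
  · linarith
  · rcases le_total 0 (a + u1 - c) with hl | hl
    · rw [abs_of_nonneg hl] at hs
      rcases le_total (u1 + u2 - c) 0 with h | h
      · rw [max_eq_right h] at hL; linarith
      · rw [max_eq_left h] at hL; linarith
    · rw [abs_of_nonpos hl] at hs
      rcases le_total (u1 + u2 - c) 0 with h | h
      · rw [max_eq_right h] at hL; linarith
      · rw [max_eq_left h] at hL; linarith
  · rcases le_total 0 (a + u1 - c) with hl | hl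
    · rw [abs_of_nonneg hl] at hs
      linarith
    · rw [abs_of_nonpos hl] at hs
      linarith
  · rcases le_total 0 (a + u1 - c) with hl | hl
    · rw [abs_of_nonneg hl] at hs
      linarith
    · rw [abs_of_nonpos hl] at hs
      linarith

/-- on the static part the left chart is the static straight form -/
theorem EL_static (hH : Hyp R c m η) {v : Fin 3 → ℂ} (hv : uu v ∈ Vm R c m)
    (hk : kap R c v ≤ -(m / 40)) : EL c D.g2 D.g1 (toK R c v) = ph0 (XT D v) := by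
  have hA := mAr D hH hv
  have hm := hH.1
  have hτ0 : 0 < ar (D.τ2 (v 2)) := D.hε1.trans hA.a_lo
  -- the first gate
  have hx1 : (toK R c v 0).re = kap R c v := H58.Rem.toK_0_re R c v
  have hx1i : (toK R c v 0).im = -(v 0).im := H58.Rem.toK_0_im R c v
  have e1 := D.og2.minus (toK R c v 0, toK R c v 2) hA.n2 (by simp only; rw [hx1]; exact hk)
  have e2 := D.og2.S_one (toK R c v 0, toK R c v 2)
    (D.hs2.one _ (by simp only; rw [hx1]; linarith))
  rw [e2] at e1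
  simp only at e1
  rw [hx1, hx1i] at e1
  have hV : (D.g2 (toK R c v 0, toK R c v 2)).1 = ee (-(v 0).im) * D.τ2 (v 2) := by
    rw [e1]; rfl
  have hZ : (D.g2 (toK R c v 0, toK R c v 2)).2 =
      phiA (((ar (D.τ2 (v 2)) - kap R c v : ℝ) : ℂ) + ((- -(v 0).im : ℝ) : ℂ) * Complex.I) := by
    rw [e1]; rfl
  have hφ := D.og2.phi_eq (v 2) hA.n2
  have huτ : uph (D.τ2 (v 2)) = ee (D.φ2 (v 2)) := by
    conv_lhs => rw [← hφ]
    exact uph_phiA hτ0
  have huV : uph (D.g2 (toK R c v 0, toK R c v 2)).1 = ee (D.φ2 (v 2) - (v 0).im) := by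
    rw [hV, uph_mul_ee, huτ, ← ee_add]
    congr 1
    ring
  have hcV : (starRingEnd ℂ) (uph (D.g2 (toK R c v 0, toK R c v 2)).1) =
      ee (-(D.φ2 (v 2) - (v 0).im)) := by
    rw [huV, conj_ee]
  have hζ : (starRingEnd ℂ) (uph (D.g2 (toK R c v 0, toK R c v 2)).1) * toK R c v 1 =
      ee (-(D.φ2 (v 2))) * v 1 := by
    rw [hcV, H58.Rem.toK_1, ← mul_assoc, ← ee_add]
    congr 2
    ring
  have hl : ar (D.g2 (toK R c v 0, toK R c v 2)).1 - c + ar (toK R c v 1) =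
      ar (D.τ2 (v 2)) + ar (v 1) - c := by
    rw [hV, ar_mul_of_norm_one (ee_norm _), H58.Rem.ar_toK_1]
    ring
  have hrot := D.og1.rot (((ar (D.τ2 (v 2)) + ar (v 1) - c : ℝ) : ℂ), ee (-(D.φ2 (v 2))) * v 1)
    (D.φ2 (v 2) - (v 0).im)
  have hyT : D.g1 (yT D v) = _ := hrot
  unfold EL
  rw [hζ, hl, hcV, huV, hZ]
  unfold ph0
  rw [XT_1, XT_2, hyT]
  have hx0 : phiA (((ar (D.τ2 (v 2)) - kap R c v : ℝ) : ℂ) +
      ((- -(v 0).im : ℝ) : ℂ) * Complex.I) = phiA (XT D v 0) := by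
    rw [XT_0]
    congr 2
    · congr 1
      unfold kap
      ring
    · rw [neg_neg]
  rw [hx0]

theorem qq_XT (v : Fin 3 → ℂ) : qq (XT D v) =
    ((v 0).re + (R + c) / 2 + (ar (D.τ2 (v 2)) + ar (v 1) - c), uu (XT D v)) := by
  unfold qq
  rw [XT_0_re]

theorem uu_XT0 (v : Fin 3 → ℂ) : uu (XT D v) 0 = ar (XT D v 1) := rfl
theorem uu_XT1 (v : Fin 3 → ℂ) : uu (XT D v) 1 = ar (XT D v 2) := rfl

theorem gq_arg {v : Fin 3 → ℂ} (hA : MAr D v) :
    ((qq (XT D v)).1 - (R + c) / 2 - (qq (XT D v)).2 0 + (qq (XT D v)).2 1,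
      c + 3 * (qq (XT D v)).2 0 - (qq (XT D v)).2 1) =
      ((v 0).re, c + 3 * ar (XT D v 1) - ar (XT D v 2)) := by
  rw [qq_XT]
  simp only
  rw [uu_XT0, uu_XT1]
  refine Prod.ext ?_ rfl
  simp only
  have := hA.diff
  linarith

theorem gq_XT {v : Fin 3 → ℂ} (hA : MAr D v) : gq R c D.qs (qq (XT D v)) =
    (R - ar (XT D v 1) - ar (XT D v 2)) / 2 + qst D v := by
  unfold gq qst
  rw [gq_arg D hA]
  rfl

theorem qst_eq {v : Fin 3 → ℂ} (hA : MAr D v) :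
    qst D v + D.t (qst D v) * (c + 3 * ar (XT D v 1) - ar (XT D v 2)) = (v 0).re :=
  D.hqs.eq _ _ hA.L_pos.le

/-- `x_1` and `x_3` are positive on the target -/
theorem qst_lt (hH : Hyp R c m η) {v : Fin 3 → ℂ} (hv : v ∈ H687.DM R c m) :
    |qst D v| < (R - ar (XT D v 1) - ar (XT D v 2)) / 2 := by
  obtain ⟨hu, hk1, hk2⟩ := hv
  have hA := mAr D hH hu
  have hq := qst_eq D hA
  have hm := hH.1
  have hη := hH.2.2.2.2
  have hL := hA.L_pos
  have hr := hA.rest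
  have ha := hA.a_lo
  have hε := D.hε1
  have hd := hA.diff
  unfold kap at hk1
  unfold kah at hk2
  generalize hQ : qst D v = q at *
  rw [abs_lt]
  constructor
  · by_cases h : q ≤ -(η / 2)
    · rw [t_left D h] at hq
      linarith
    · linarith
  · by_cases h : η / 2 ≤ q
    · rw [D.ht.one q h] at hq
      linarith
    · linarith

/-- the middle chart after the change of `x_1` -/
noncomputable def YT (v : Fin 3 → ℂ) : Fin 3 → ℂ := clift (gq R c D.qs) (XT D v)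

theorem cM_eq (v : Fin 3 → ℂ) : D.cM v = gau R (ph0 (YT D v)) := rfl
theorem aM_eq (v : Fin 3 → ℂ) : D.aM v = (YT D v 0).im := rfl

theorem YT_0 {v : Fin 3 → ℂ} (hA : MAr D v) : YT D v 0 =
    (((R - ar (XT D v 1) - ar (XT D v 2)) / 2 + qst D v : ℝ) : ℂ) +
      ((D.aM v : ℝ) : ℂ) * Complex.I := by
  apply Complex.ext
  · have h1 : (YT D v 0).re = gq R c D.qs (qq (XT D v)) := clift_re _ _
    rw [h1, gq_XT D hA, a1_re]
  · rw [a1_im]
    rfl

theorem ar_YT1 (v : Fin 3 → ℂ) : ar (YT D v 1) = ar (XT D v 1) := by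
  have h : YT D v 1 = ee _ * XT D v 1 := clift_succ _ _ 0
  rw [h, ar_mul_of_norm_one (ee_norm _)]

theorem ar_YT2 (v : Fin 3 → ℂ) : ar (YT D v 2) = ar (XT D v 2) := by
  have h : YT D v 2 = ee _ * XT D v 2 := clift_succ _ _ 1
  rw [h, ar_mul_of_norm_one (ee_norm _)]

/-- the areas of the middle chart -/
theorem cM_ar (hH : Hyp R c m η) {v : Fin 3 → ℂ} (hv : v ∈ H687.DM R c m) :
    ar (D.cM v 0) = ar (XT D v 2) ∧
    ar (D.cM v 1) = (R - ar (XT D v 1) - ar (XT D v 2)) / 2 + qst D v ∧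
    ar (D.cM v 2) = (R - ar (XT D v 1) - ar (XT D v 2)) / 2 - qst D v := by
  have hA := mAr D hH hv.1
  have hq := abs_lt.1 (qst_lt D hH hv)
  have h2 : ar (ph0 (YT D v) 2) = ar (XT D v 1) := ar_YT1 D v
  have h0 : ar (ph0 (YT D v) 0) = ar (XT D v 2) := ar_YT2 D v
  have h1 : ar (ph0 (YT D v) 1) = (R - ar (XT D v 1) - ar (XT D v 2)) / 2 + qst D v := by
    show ar (phiA (YT D v 0)) = _
    rw [YT_0 D hA]
    exact ar_phiA_re_im (by linarith [hq.1])
  have hne : ph0 (YT D v) 2 ≠ 0 := ar_pos.1 (by rw [h2]; exact hA.pos1)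
  rw [cM_eq, H58.Rem.gau_ar0 hne, H58.Rem.gau_ar1 hne,
    H58.Rem.gau_ar2 hne (by rw [h0, h1, h2]; linarith [hq.2]), h0, h1, h2]
  refine ⟨rfl, rfl, ?_⟩
  ring

/-- `(x_1 - x_3) / 2` of the middle chart -/
theorem qim_cM (hH : Hyp R c m η) {v : Fin 3 → ℂ} (hv : v ∈ H687.DM R c m) :
    qim (D.cM v) = qst D v := by
  obtain ⟨h0, h1, h2⟩ := cM_ar D hH hv
  unfold qim
  rw [h1, h2]
  ring

/-! ### the plateaus -/

theorem gq_left {q0 : ℝ × (Fin 2 → ℝ)} (hL : 0 < c + 3 * q0.2 0 - q0.2 1)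
    (hq : D.qs (q0.1 - (R + c) / 2 - q0.2 0 + q0.2 1, c + 3 * q0.2 0 - q0.2 1) < -(η / 2)) :
    gq R c D.qs =ᶠ[nhds q0] fun q => q.1 := by
  have hc1 : ContinuousAt (fun q : ℝ × (Fin 2 → ℝ) =>
      (q.1 - (R + c) / 2 - q.2 0 + q.2 1, c + 3 * q.2 0 - q.2 1)) q0 := by
    fun_prop
  have hc2 : ContinuousAt (fun q : ℝ × (Fin 2 → ℝ) =>
      D.qs (q.1 - (R + c) / 2 - q.2 0 + q.2 1, c + 3 * q.2 0 - q.2 1)) q0 :=
    ContinuousAt.comp (g := D.qs) (D.hqs.smooth _ _ hL).continuousAt hc1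
  have hc3 : ContinuousAt (fun q : ℝ × (Fin 2 → ℝ) => c + 3 * q.2 0 - q.2 1) q0 := by
    fun_prop
  filter_upwards [hc2.eventually (gt_mem_nhds hq), hc3.eventually (lt_mem_nhds hL)] with q h1 h2
  have h3 := D.hqs.eq (q.1 - (R + c) / 2 - q.2 0 + q.2 1) _ h2.le
  rw [t_left D h1.le] at h3
  unfold gq
  linarith

theorem gq_right {q0 : ℝ × (Fin 2 → ℝ)} (hL : 0 < c + 3 * q0.2 0 - q0.2 1)
    (hq : η / 2 < D.qs (q0.1 - (R + c) / 2 - q0.2 0 + q0.2 1, c + 3 * q0.2 0 - q0.2 1)) :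
    gq R c D.qs =ᶠ[nhds q0] fun q => q.1 + (-c - 3 * q.2 0 + q.2 1) := by
  have hc1 : ContinuousAt (fun q : ℝ × (Fin 2 → ℝ) =>
      (q.1 - (R + c) / 2 - q.2 0 + q.2 1, c + 3 * q.2 0 - q.2 1)) q0 := by
    fun_prop
  have hc2 : ContinuousAt (fun q : ℝ × (Fin 2 → ℝ) =>
      D.qs (q.1 - (R + c) / 2 - q.2 0 + q.2 1, c + 3 * q.2 0 - q.2 1)) q0 :=
    ContinuousAt.comp (g := D.qs) (D.hqs.smooth _ _ hL).continuousAt hc1
  have hc3 : ContinuousAt (fun q : ℝ × (Fin 2 → ℝ) => c + 3 * q.2 0 - q.2 1) q0 := by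
    fun_prop
  filter_upwards [hc2.eventually (lt_mem_nhds hq), hc3.eventually (lt_mem_nhds hL)] with q h1 h2
  have h3 := D.hqs.eq (q.1 - (R + c) / 2 - q.2 0 + q.2 1) _ h2.le
  rw [D.ht.one _ h1.le] at h3
  unfold gq
  linarith

theorem YT_left {v : Fin 3 → ℂ} (hA : MAr D v) (hq : qst D v < -(η / 2)) :
    YT D v = XT D v := by
  unfold YT
  have h1 := gq_arg D hA
  have h2 : gq R c D.qs =ᶠ[nhds (qq (XT D v))] fun q => q.1 := by
    refine gq_left D ?_ ?_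
    · have h3 := congrArg Prod.snd h1
      simp only at h3
      rw [h3]; exact hA.L_pos
    · rw [h1]; exact hq
  rw [clift_congr h2, clift_id]

theorem YT_right {v : Fin 3 → ℂ} (hA : MAr D v) (hq : η / 2 < qst D v) :
    YT D v 0 = XT D v 0 + ((-c - 3 * ar (XT D v 1) + ar (XT D v 2) : ℝ) : ℂ) ∧
    YT D v 1 = ee (3 * (v 0).im) * XT D v 1 ∧ YT D v 2 = ee (-(v 0).im) * XT D v 2 := by
  have h1 := gq_arg D hA
  have h2 : gq R c D.qs =ᶠ[nhds (qq (XT D v))] fun q => q.1 + (-c - 3 * q.2 0 + q.2 1) := by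
    refine gq_right D ?_ ?_
    · have h3 := congrArg Prod.snd h1
      simp only at h3
      rw [h3]; exact hA.L_pos
    · rw [h1]; exact hq
  let L : (Fin 2 → ℝ) →L[ℝ] ℝ := (-3 : ℝ) • ContinuousLinearMap.proj (R := ℝ) (φ := fun _ => ℝ) 0 +
    ContinuousLinearMap.proj (R := ℝ) (φ := fun _ => ℝ) 1
  have hg : HasFDerivAt (fun u : Fin 2 → ℝ => -c - 3 * u 0 + u 1) L (uu (XT D v)) := by
    have h3 : HasFDerivAt (fun u : Fin 2 → ℝ => -c + L u) L (uu (XT D v)) :=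
      (L.hasFDerivAt).const_add (-c)
    refine h3.congr_of_eventuallyEq (Filter.Eventually.of_forall fun u => ?_)
    simp only [L, ContinuousLinearMap.add_apply, ContinuousLinearMap.smul_apply,
      ContinuousLinearMap.proj_apply, smul_eq_mul]
    ring
  have h4 := clift_shear (g := fun u : Fin 2 → ℝ => -c - 3 * u 0 + u 1) h2 hg.differentiableAt
  have hL0 : L (Pi.single 0 1) = -3 := by simp [L]
  have hL1 : L (Pi.single 1 1) = 1 := by simp [L]
  rw [hg.fderiv] at h4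
  refine ⟨?_, ?_, ?_⟩
  · have h5 := congrFun h4 0
    exact h5
  · have h5 := congrFun h4 1
    have h6 : YT D v 1 = ee (-((XT D v 0).im * L (Pi.single 0 1))) * XT D v 1 := h5
    rw [h6, hL0, XT_0_im]
    congr 2
    ring
  · have h5 := congrFun h4 2
    have h6 : YT D v 2 = ee (-((XT D v 0).im * L (Pi.single 1 1))) * XT D v 2 := h5
    rw [h6, hL1, XT_0_im]
    congr 2
    ring

end Vale.Agent.P209.H684.Mid
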