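import Vale.Agent.P209.H684.GateDefs

/-!
# Suspended twists: an explicit isotopy from the identity to a map which moves a disc off `0`
-/

namespace Vale.Agent.P209.H684

open Vale.Agent.P209 Vale.Agent.P209.Strong
open scoped ContDiff

/-- profile of the rotation angle, in turns -/
noncomputable def ta (q : ℝ) : ℝ := Real.smoothTransition (2 - 2 * q) / 2

/-- a primitive of `ta` -/
noncomputable def tA (q : ℝ) : ℝ := ∫ t in (0 : ℝ)..q, ta t

theorem ta_contDiff : ContDiff ℝ ∞ ta := by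
  unfold ta
  exact (Real.smoothTransition.contDiff.comp (by fun_prop)).div_const _

theorem ta_of_le {q : ℝ} (h : q ≤ 1 / 2) : ta q = 1 / 2 := by
  unfold ta
  rw [Real.smoothTransition.one_of_one_le (by linarith only [h])]

theorem ta_of_ge {q : ℝ} (h : 1 ≤ q) : ta q = 0 := by
  unfold ta
  rw [Real.smoothTransition.zero_of_nonpos (by linarith)]
  ring

theorem ta_eq_ang (q : ℝ) : 2 * Real.pi * ta q = ang q := by
  unfold ta ang; ring

theorem tA_hasDerivAt (q : ℝ) : HasDerivAt tA (ta q) q :=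
  (ta_contDiff.continuous.integral_hasStrictDerivAt 0 q).hasDerivAt

theorem tA_contDiff : ContDiff ℝ ∞ tA := by
  rw [contDiff_infty_iff_deriv]
  refine ⟨fun q => (tA_hasDerivAt q).differentiableAt, ?_⟩
  have : deriv tA = ta := by funext q; exact (tA_hasDerivAt q).deriv
  rw [this]
  exact ta_contDiff

/-- Symplectic maps of `ℂ × ℂ` which fix the real part of the first slot, commute with imaginary
translations of the first slot and are the identity where `s = 0`. -/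
structure Susp (s : ℝ → ℝ) (S : ℂ × ℂ → ℂ × ℂ) : Prop where
  smooth : ContDiff ℝ ∞ S
  sympl : ∀ x v w, om2 (fderiv ℝ S x v) (fderiv ℝ S x w) = om2 v w
  inj : Function.Injective S
  re : ∀ x, (S x).1.re = x.1.re
  im : ∀ (x : ℂ × ℂ) (t : ℝ), S (x.1 + t * Complex.I, x.2) = ((S x).1 + t * Complex.I, (S x).2)
  off : ∀ x, s x.1.re = 0 → S x = x

theorem Susp.id (s : ℝ → ℝ) : Susp s (fun x => x) where
  smooth := contDiff_id
  sympl := by intro x v w; simp
  inj := fun _ _ h => h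
  re := fun _ => rfl
  im := fun _ _ => rfl
  off := fun _ _ => rfl

theorem Susp.comp {s : ℝ → ℝ} {S T : ℂ × ℂ → ℂ × ℂ} (hS : Susp s S) (hT : Susp s T) :
    Susp s (fun x => S (T x)) where
  smooth := hS.smooth.comp hT.smooth
  sympl := by
    intro x v w
    have h1 : DifferentiableAt ℝ S (T x) := hS.smooth.contDiffAt.differentiableAt (by simp)
    have h2 : DifferentiableAt ℝ T x := hT.smooth.contDiffAt.differentiableAt (by simp)
    have : fderiv ℝ (fun x => S (T x)) x = (fderiv ℝ S (T x)).comp (fderiv ℝ T x) :=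
      fderiv_comp x h1 h2
    rw [this]
    simp only [ContinuousLinearMap.comp_apply]
    rw [hS.sympl, hT.sympl]
  inj := hS.inj.comp hT.inj
  re := fun x => by rw [hS.re, hT.re]
  im := by
    intro x t
    show S (T (x.1 + t * Complex.I, x.2)) = _
    rw [hT.im, hS.im (T x) t]
  off := by
    intro x hx
    show S (T x) = x
    rw [hT.off x hx, hS.off x hx]

/-- the suspended twist with centre `c` and radius `ρ` -/
noncomputable def sTw (s : ℝ → ℝ) (c : ℂ) (ρ : ℝ) (x : ℂ × ℂ) : ℂ × ℂ :=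
  (x.1 + ((Real.pi * ρ ^ 2 * (deriv s x.1.re * tA (Complex.normSq (x.2 - c) / ρ ^ 2)) : ℝ) : ℂ) *
      Complex.I,
    c + ee (s x.1.re * ta (Complex.normSq (x.2 - c) / ρ ^ 2)) * (x.2 - c))

theorem sTw_dist (s : ℝ → ℝ) (c : ℂ) (ρ : ℝ) (x : ℂ × ℂ) :
    ‖(sTw s c ρ x).2 - c‖ = ‖x.2 - c‖ := by
  show ‖c + ee _ * (x.2 - c) - c‖ = _
  rw [add_sub_cancel_left, norm_mul, ee_norm, one_mul]

theorem sTw_of_ge {s : ℝ → ℝ} {c : ℂ} {ρ : ℝ} (hρ : 0 < ρ) {x : ℂ × ℂ} (h : ρ ≤ ‖x.2 - c‖) :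
    (sTw s c ρ x).2 = x.2 := by
  show c + ee _ * (x.2 - c) = x.2
  rw [ta_of_ge]
  · rw [mul_zero, ee_zero]; ring
  · rw [Complex.normSq_eq_norm_sq, one_le_div (by positivity)]
    gcongr

theorem sTw_of_one {s : ℝ → ℝ} (h1 : ∀ t, s t ≤ 1) {c : ℂ} {ρ : ℝ} {x : ℂ × ℂ}
    (h : s x.1.re = 1) : sTw s c ρ x = (x.1, twc c ρ x.2) := by
  have hd : deriv s x.1.re = 0 := by
    refine IsLocalMax.deriv_eq_zero ?_
    exact Filter.Eventually.of_forall fun t => by rw [h]; exact h1 t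
  unfold sTw
  rw [hd, h]
  refine Prod.ext ?_ ?_
  · simp
  · show c + ee (1 * ta _) * (x.2 - c) = twc c ρ x.2
    unfold twc tw ee
    rw [one_mul, ta_eq_ang, ← sub_eq_add_neg]
    ring

theorem sTw_susp {s : ℝ → ℝ} (hs : ContDiff ℝ ∞ s) (h0 : ∀ t, 0 ≤ s t) (c : ℂ) {ρ : ℝ}
    (hρ : 0 < ρ) : Susp s (sTw s c ρ) where
  smooth := by
    have hre : ContDiff ℝ ∞ (fun x : ℂ × ℂ => x.1.re) :=
      Complex.reCLM.contDiff.comp contDiff_fst
    have hq : ContDiff ℝ ∞ (fun x : ℂ × ℂ => Complex.normSq (x.2 - c) / ρ ^ 2) :=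
      (normSq_contDiff.comp (contDiff_snd.sub contDiff_const)).div_const _
    have hds : ContDiff ℝ ∞ (deriv s) := (contDiff_infty_iff_deriv.1 hs).2
    have h1 : ContDiff ℝ ∞ (fun x : ℂ × ℂ => ((Real.pi * ρ ^ 2 *
        (deriv s x.1.re * tA (Complex.normSq (x.2 - c) / ρ ^ 2)) : ℝ) : ℂ)) :=
      Complex.ofRealCLM.contDiff.comp
        (contDiff_const.mul ((hds.comp hre).mul (tA_contDiff.comp hq)))
    have h2 : ContDiff ℝ ∞ (fun x : ℂ × ℂ =>
        ee (s x.1.re * ta (Complex.normSq (x.2 - c) / ρ ^ 2))) :=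
      ee_contDiff.comp ((hs.comp hre).mul (ta_contDiff.comp hq))
    exact (contDiff_fst.add (h1.mul contDiff_const)).prodMk
      (contDiff_const.add (h2.mul (contDiff_snd.sub contDiff_const)))
  sympl := by
    intro x v w
    have hpi := Real.pi_pos
    -- basic derivatives
    set K : (ℂ × ℂ) →L[ℝ] ℝ := Complex.reCLM.comp (ContinuousLinearMap.fst ℝ ℂ ℂ) with hK
    set Q : (ℂ × ℂ) →L[ℝ] ℝ := (arD (x.2 - c)).comp (ContinuousLinearMap.snd ℝ ℂ ℂ) with hQ
    have hκ : HasFDerivAt (fun x : ℂ × ℂ => x.1.re) K x := K.hasFDerivAt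
    have hz : HasFDerivAt (fun x : ℂ × ℂ => x.2 - c) (ContinuousLinearMap.snd ℝ ℂ ℂ) x :=
      (ContinuousLinearMap.snd ℝ ℂ ℂ).hasFDerivAt.sub_const c
    have hq : HasFDerivAt (fun x : ℂ × ℂ => Complex.normSq (x.2 - c) / ρ ^ 2)
        ((Real.pi * ρ ^ 2)⁻¹ • Q) x := by
      have h0 := (ar_hasFDerivAt (x.2 - c)).comp x hz
      have h1 : HasFDerivAt (fun x : ℂ × ℂ => ar (x.2 - c)) Q x := h0
      have h2 := h1.const_mul (Real.pi * ρ ^ 2)⁻¹
      have h3 : (fun x : ℂ × ℂ => (Real.pi * ρ ^ 2)⁻¹ * ar (x.2 - c)) =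
          fun x : ℂ × ℂ => Complex.normSq (x.2 - c) / ρ ^ 2 := by
        funext y
        rw [ar_eq_normSq]
        field_simp
      rwa [h3] at h2
    set q : ℝ := Complex.normSq (x.2 - c) / ρ ^ 2 with hqdef
    have hsd : HasDerivAt s (deriv s x.1.re) x.1.re :=
      (hs.differentiable (by simp) _).hasDerivAt
    have hdsd : HasDerivAt (deriv s) (deriv (deriv s) x.1.re) x.1.re :=
      ((contDiff_infty_iff_deriv.1 hs).2.differentiable (by simp) _).hasDerivAt
    have htad : HasDerivAt ta (deriv ta q) q := (ta_contDiff.differentiable (by simp) _).hasDerivAt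
    have e1' := hsd.comp_hasFDerivAt x hκ
    have e1 : HasFDerivAt (fun x : ℂ × ℂ => s x.1.re) (deriv s x.1.re • K) x := e1'
    have e2' := hdsd.comp_hasFDerivAt x hκ
    have e2 : HasFDerivAt (fun x : ℂ × ℂ => deriv s x.1.re) (deriv (deriv s) x.1.re • K) x := e2'
    have e3' := htad.comp_hasFDerivAt x hq
    have e3 : HasFDerivAt (fun x : ℂ × ℂ => ta (Complex.normSq (x.2 - c) / ρ ^ 2))
        (deriv ta q • (Real.pi * ρ ^ 2)⁻¹ • Q) x := e3'
    have e4' := (tA_hasDerivAt q).comp_hasFDerivAt x hq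
    have e4 : HasFDerivAt (fun x : ℂ × ℂ => tA (Complex.normSq (x.2 - c) / ρ ^ 2))
        (ta q • (Real.pi * ρ ^ 2)⁻¹ • Q) x := e4'
    have e5 : HasFDerivAt (fun x : ℂ × ℂ => s x.1.re * ta (Complex.normSq (x.2 - c) / ρ ^ 2))
        (s x.1.re • deriv ta q • (Real.pi * ρ ^ 2)⁻¹ • Q + ta q • deriv s x.1.re • K) x :=
      e1.mul e3
    have e6 : HasFDerivAt (fun x : ℂ × ℂ => Real.pi * ρ ^ 2 *
        (deriv s x.1.re * tA (Complex.normSq (x.2 - c) / ρ ^ 2)))
        ((Real.pi * ρ ^ 2) • (deriv s x.1.re • ta q • (Real.pi * ρ ^ 2)⁻¹ • Q +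
          tA q • deriv (deriv s) x.1.re • K)) x :=
      (e2.mul e4).const_mul (Real.pi * ρ ^ 2)
    -- slots
    have f1 : HasFDerivAt (fun x : ℂ × ℂ => x.1 + ((Real.pi * ρ ^ 2 *
        (deriv s x.1.re * tA (Complex.normSq (x.2 - c) / ρ ^ 2)) : ℝ) : ℂ) * Complex.I) _ x :=
      (ContinuousLinearMap.fst ℝ ℂ ℂ).hasFDerivAt.add
        ((Complex.ofRealCLM.hasFDerivAt.comp x e6).mul_const Complex.I)
    obtain ⟨B, hB, hBv⟩ := phase_hasFDerivAt e5 hz
    have f2 : HasFDerivAt (fun x : ℂ × ℂ =>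
        c + ee (s x.1.re * ta (Complex.normSq (x.2 - c) / ρ ^ 2)) * (x.2 - c)) B x :=
      hB.const_add c
    have f3 : HasFDerivAt (sTw s c ρ) _ x := f1.prodMk f2
    rw [f3.fderiv]
    have hb1 : fderiv ℝ (fun y : ℂ × ℂ =>
        ee (s y.1.re * ta (Complex.normSq (y.2 - c) / ρ ^ 2)) * (y.2 - c)) x = B := hB.fderiv
    have g2 := om1_phase e5 hz v w
    rw [hb1] at g2
    unfold om2
    simp only [ContinuousLinearMap.prod_apply]
    rw [g2]
    have hρ2 : Real.pi * ρ ^ 2 ≠ 0 := by positivity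
    simp only [om1, wd, add_apply, smul_apply, ContinuousLinearMap.comp_apply,
      ContinuousLinearMap.coe_fst', ContinuousLinearMap.coe_snd', Complex.ofRealCLM_apply,
      Complex.add_re, Complex.add_im, Complex.mul_re, Complex.mul_im, Complex.ofReal_re,
      Complex.ofReal_im, Complex.I_re, Complex.I_im, smul_eq_mul, hK, hQ, Complex.reCLM_apply]
    field_simp
    ring
  inj := by
    intro x y h
    have h1 := congrArg Prod.fst h
    have h2 := congrArg Prod.snd h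
    simp only [sTw] at h1 h2
    have hre : x.1.re = y.1.re := by
      have := congrArg Complex.re h1
      simpa only [Complex.add_re, Complex.re_ofReal_mul, Complex.I_re, mul_zero, add_zero]
        using this
    have hn : ‖x.2 - c‖ = ‖y.2 - c‖ := by
      rw [← sTw_dist s c ρ x, ← sTw_dist s c ρ y, h]
    have hq : Complex.normSq (x.2 - c) = Complex.normSq (y.2 - c) := by
      rw [Complex.normSq_eq_norm_sq, Complex.normSq_eq_norm_sq, hn]
    rw [hre, hq] at h1 h2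
    have h3 := mul_left_cancel₀ (ee_ne_zero _) (add_left_cancel h2)
    have h4 : x.2 = y.2 := sub_left_injective h3
    have h5 : x.1 = y.1 := add_right_cancel h1
    exact Prod.ext h5 h4
  re := by
    intro x
    simp only [sTw, Complex.add_re, Complex.re_ofReal_mul, Complex.I_re, mul_zero, add_zero]
  im := by
    intro x t
    have h1 : (x.1 + (t : ℂ) * Complex.I).re = x.1.re := by simp
    simp only [sTw, h1]
    refine Prod.ext ?_ rfl
    ring
  off := by
    intro x hx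
    have hd : deriv s x.1.re = 0 := by
      refine IsLocalMin.deriv_eq_zero ?_
      exact Filter.Eventually.of_forall fun t => by rw [hx]; exact h0 t
    unfold sTw
    rw [hd, hx]
    refine Prod.ext ?_ ?_
    · simp
    · simp [ee_zero]

/-- Pushing the origin outwards, in the suspended form. -/
theorem push2 {s : ℝ → ℝ} (hs : ContDiff ℝ ∞ s) (h0 : ∀ t, 0 ≤ s t) (h1 : ∀ t, s t ≤ 1)
    (ρ : ℝ) (hρ : 0 < ρ) (j : ℕ) :
    ∃ (τ : ℂ → ℂ) (S : ℂ × ℂ → ℂ × ℂ), Sympl1 τ ∧ Susp s S ∧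
      (∀ x, ‖(S x).2‖ ≤ ‖x.2‖ + 2 * ρ) ∧
      (∀ x, ‖(S x).2‖ ≤ max ‖x.2‖ ((j + 1 / 2) * ρ)) ∧
      (∀ x, s x.1.re = 1 → S x = (x.1, τ x.2)) ∧ τ ((j * ρ : ℝ) : ℂ) = 0 := by
  induction j with
  | zero =>
    refine ⟨fun z => z, fun x => x, Sympl1.id, Susp.id s, ?_, ?_, ?_, ?_⟩
    · intro x; linarith
    · intro x; exact le_max_left _ _
    · intro x _; rfl
    · simp
  | succ j ih =>
    obtain ⟨τ, S, k1, k2, k3, k4, k5, k6⟩ := ih
    set c : ℂ := (((j + 1 / 2) * ρ : ℝ) : ℂ) with hc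
    have hcn : ‖c‖ = (j + 1 / 2) * ρ := by
      rw [hc, Complex.norm_real, Real.norm_of_nonneg (by positivity)]
    refine ⟨fun z => τ (twc c ρ z), fun x => S (sTw s c ρ x), k1.comp (twc_sympl c ρ),
      k2.comp (sTw_susp hs h0 c hρ), ?_, ?_, ?_, ?_⟩
    · intro x
      show ‖(S (sTw s c ρ x)).2‖ ≤ _
      by_cases hz : ρ ≤ ‖x.2 - c‖
      · have h2 := k3 (sTw s c ρ x)
        rwa [sTw_of_ge hρ hz] at h2
      · push Not at hz
        have h5 : ‖(sTw s c ρ x).2‖ ≤ (j + 1 / 2) * ρ + ρ := by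
          have : (sTw s c ρ x).2 = ((sTw s c ρ x).2 - c) + c := by ring
          rw [this]
          refine (norm_add_le _ _).trans ?_
          rw [sTw_dist, hcn]
          linarith only [hz]
        have h6 : (j + 1 / 2) * ρ - ρ ≤ ‖x.2‖ := by
          have : c = x.2 - (x.2 - c) := by ring
          have h7 : ‖c‖ ≤ ‖x.2‖ + ‖x.2 - c‖ := by
            conv_lhs => rw [this]
            exact norm_sub_le _ _
          rw [hcn] at h7
          linarith only [h7, hz]
        have h8 := k4 (sTw s c ρ x)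
        have h9 : max ‖(sTw s c ρ x).2‖ ((j + 1 / 2) * ρ) ≤ (j + 1 / 2) * ρ + ρ :=
          max_le h5 (by linarith only [hρ])
        linarith only [h6, h8, h9]
    · intro x
      have hcast : ((j + 1 : ℕ) : ℝ) = (j : ℝ) + 1 := by push_cast; ring
      rw [hcast]
      show ‖(S (sTw s c ρ x)).2‖ ≤ _
      by_cases hz : ρ ≤ ‖x.2 - c‖
      · have h2 := k4 (sTw s c ρ x)
        rw [sTw_of_ge hρ hz] at h2
        refine h2.trans (max_le_max le_rfl ?_)
        linarith only [hρ]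
      · push Not at hz
        have h5 : ‖(sTw s c ρ x).2‖ ≤ (j + 1 / 2) * ρ + ρ := by
          have : (sTw s c ρ x).2 = ((sTw s c ρ x).2 - c) + c := by ring
          rw [this]
          refine (norm_add_le _ _).trans ?_
          rw [sTw_dist, hcn]
          linarith only [hz]
        refine (k4 _).trans ?_
        refine le_trans ?_ (le_max_right _ _)
        refine max_le ?_ ?_
        · linarith only [h5]
        · linarith only [hρ]
    · intro x hx
      show S (sTw s c ρ x) = (x.1, τ (twc c ρ x.2))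
      rw [sTw_of_one h1 hx]
      exact k5 (x.1, twc c ρ x.2) hx
    · show τ (twc c ρ _) = 0
      rw [twc_swap hρ]
      · rw [← k6]
        congr 1
        rw [hc]
        push_cast
        ring
      · have : ((((j + 1 : ℕ) : ℝ) * ρ : ℝ) : ℂ) - c = ((ρ / 2 : ℝ) : ℂ) := by
          rw [hc]
          push_cast
          ring
        rw [this, Complex.norm_real, Real.norm_of_nonneg (by positivity)]
        linarith only []

/-- The isotopy: where `s = 1` the disc `‖z‖ ≤ r` is moved off the origin, where `s = 0` nothing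
happens. -/
theorem exists_susp_off {s : ℝ → ℝ} (hs : ContDiff ℝ ∞ s) (h0 : ∀ t, 0 ≤ s t) (h1 : ∀ t, s t ≤ 1)
    (r ε : ℝ) (hε : 0 < ε) :
    ∃ (τ : ℂ → ℂ) (S : ℂ × ℂ → ℂ × ℂ), Sympl1 τ ∧ Susp s S ∧
      (∀ x, ‖(S x).2‖ ≤ ‖x.2‖ + ε) ∧
      (∀ x, s x.1.re = 1 → S x = (x.1, τ x.2)) ∧ (∀ z, ‖z‖ ≤ r → τ z ≠ 0) := by
  obtain ⟨j, hj⟩ := exists_nat_gt (r / (ε / 2))
  obtain ⟨τ, S, k1, k2, k3, -, k5, k6⟩ := push2 hs h0 h1 (ε / 2) (by positivity) j
  refine ⟨τ, S, k1, k2, fun x => by have := k3 x; linarith only [this], k5, ?_⟩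
  intro z hz h0
  have h5 : z = ((j * (ε / 2) : ℝ) : ℂ) := k1.inj (by rw [h0, k6])
  have h6 : ‖z‖ = j * (ε / 2) := by
    rw [h5, Complex.norm_real, Real.norm_of_nonneg (by positivity)]
  have h7 : r < j * (ε / 2) := by
    rwa [div_lt_iff₀ (by positivity)] at hj
  linarith only [hz, h6, h7]

/-- The lifted angle of a map without zeros on a disc. -/
theorem exists_lift {τ : ℂ → ℂ} (hτ : Sympl1 τ) {r : ℝ} (hr : 0 < r)
    (h0 : ∀ z, ‖z‖ < r → τ z ≠ 0) :
    ∃ φ : ℂ → ℝ, (∀ z, ‖z‖ < r → ContDiffAt ℝ ∞ φ z) ∧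
      (∀ z, ‖z‖ < r → phiA ((ar (τ z) : ℂ) + (φ z : ℂ) * Complex.I) = τ z) ∧
      (∀ z, ‖z‖ < r → ∀ v w, wd (fderiv ℝ (fun z => ar (τ z)) z) (fderiv ℝ φ z) v w = om1 v w) := by
  obtain ⟨f, hf, hfl⟩ := a1_log hτ.smooth hr h0
  have hpi := Real.pi_pos
  have hsm : ∀ z, ‖z‖ < r → ContDiffAt ℝ ∞ (fun z => (f z).im / (2 * Real.pi)) z := fun z hz =>
    (Complex.imCLM.contDiff.contDiffAt.comp z
      (a1_log_contDiffAt hτ.smooth (h0 z hz) (hfl z hz))).div_const _
  have hph : ∀ z, ‖z‖ < r →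
      phiA ((ar (τ z) : ℂ) + (((f z).im / (2 * Real.pi) : ℝ) : ℂ) * Complex.I) = τ z := by
    intro z hz
    rw [phiA_eq, a1_re, a1_im, ← hf z hz]
    have h1 : ar (Complex.exp (f z)) / Real.pi = (Real.exp (f z).re) ^ 2 := by
      unfold ar
      rw [Complex.norm_exp]
      field_simp
    rw [h1, Real.sqrt_sq (Real.exp_pos _).le]
    unfold ee
    have h2 : 2 * Real.pi * ((f z).im / (2 * Real.pi)) = (f z).im := by field_simp
    rw [h2, Complex.ofReal_exp, ← Complex.exp_add, Complex.re_add_im]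
  refine ⟨fun z => (f z).im / (2 * Real.pi), hsm, hph, ?_⟩
  intro z hz v w
  have ha : HasFDerivAt (fun z => ar (τ z)) (fderiv ℝ (fun z => ar (τ z)) z) z :=
    ((ar_contDiff.comp hτ.smooth).contDiffAt.differentiableAt (by simp)).hasFDerivAt
  have hb : HasFDerivAt (fun z => (f z).im / (2 * Real.pi))
      (fderiv ℝ (fun z => (f z).im / (2 * Real.pi)) z) z :=
    ((hsm z hz).differentiableAt (by simp)).hasFDerivAt
  have h1 := om1_phiA ha hb (ar_pos.2 (h0 z hz)) v w
  have h2 : (fun y => phiA ((ar (τ y) : ℂ) + (((f y).im / (2 * Real.pi) : ℝ) : ℂ) * Complex.I))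
      =ᶠ[nhds z] τ := by
    filter_upwards [(isOpen_lt continuous_norm continuous_const).mem_nhds hz] with y hy
    exact hph y hy
  rw [h2.fderiv_eq, hτ.sympl] at h1
  exact h1.symm

end Vale.Agent.P209.H684
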